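import Mathlib

/-!
Descent of finite-dimensional spaces of series: the reduced echelon basis, automorphisms of
algebraically closed fields that move a transcendental number, and the descent to algebraic numbers.
-/

set_option linter.unusedSectionVars false

namespace Vale.Agent.P022.H116

open Module

/-! ### The reduced echelon basis -/

section ech

variable {K : Type*} [Field K] {ι : Type*}

theorem exists_sep (n : ℕ) : ∀ (W : Submodule K (ι → K)), FiniteDimensional K W →
    finrank K W ≤ n → ∃ S : Finset ι, ∀ w ∈ W, (∀ s ∈ S, w s = 0) → w = 0 := by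
  classical
  induction n with
  | zero =>
    intro W hW hn
    refine ⟨∅, fun w hw _ => ?_⟩
    have h0 : W = ⊥ := Submodule.finrank_eq_zero.1 (Nat.le_zero.1 hn)
    rw [h0] at hw
    exact (Submodule.mem_bot K).1 hw
  | succ n ih =>
    intro W hW hn
    by_cases h0 : W = ⊥
    · refine ⟨∅, fun w hw _ => ?_⟩
      rw [h0] at hw
      exact (Submodule.mem_bot K).1 hw
    · obtain ⟨w₀, hw₀, hne⟩ := Submodule.exists_mem_ne_zero_of_ne_bot h0
      obtain ⟨i, hi⟩ := Function.ne_iff.1 hne
      let W₁ : Submodule K (ι → K) := W ⊓ LinearMap.ker (LinearMap.proj i)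
      have hlt : W₁ < W := by
        refine lt_of_le_of_ne inf_le_left fun h => hi ?_
        have h1 : w₀ ∈ W₁ := by rw [h]; exact hw₀
        exact h1.2
      have hfin : FiniteDimensional K W₁ := Submodule.finiteDimensional_of_le hlt.le
      have hr := Submodule.finrank_lt_finrank_of_lt hlt
      obtain ⟨S, hS⟩ := ih W₁ hfin (by omega)
      refine ⟨insert i S, fun w hw h => hS w ⟨hw, h i (Finset.mem_insert_self i S)⟩
        fun s hs => h s (Finset.mem_insert_of_mem hs)⟩

/-- **The reduced echelon basis** with respect to a minimal separating set of coordinates. -/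
theorem exists_ech [DecidableEq ι] (W : Submodule K (ι → K)) [FiniteDimensional K W] :
    ∃ (S : Finset ι) (e : ι → ι → K), (∀ s ∈ S, e s ∈ W) ∧
      (∀ s ∈ S, ∀ t ∈ S, e s t = if t = s then 1 else 0) ∧
      (∀ w ∈ W, (∀ s ∈ S, w s = 0) → w = 0) ∧ ∀ w ∈ W, w = ∑ s ∈ S, w s • e s := by
  classical
  obtain ⟨S₀, hS₀⟩ := exists_sep (finrank K W) W inferInstance le_rfl
  let P : ℕ → Prop := fun n => ∃ S : Finset ι, S.card = n ∧
    ∀ w ∈ W, (∀ s ∈ S, w s = 0) → w = 0
  have hP : ∃ n, P n := ⟨_, S₀, rfl, hS₀⟩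
  obtain ⟨S, hcard, hS⟩ := Nat.find_spec hP
  have hmin : ∀ s ∈ S, ∃ w ∈ W, (∀ t ∈ S.erase s, w t = 0) ∧ w ≠ 0 := by
    intro s hs
    by_contra hcon
    push Not at hcon
    have h1 : P (S.erase s).card := ⟨_, rfl, fun w hw h => hcon w hw h⟩
    have h2 := Nat.find_min' hP h1
    have h3 := Finset.card_erase_lt_of_mem hs
    rw [hcard] at h3
    exact absurd h2 (not_le.2 h3)
  have hex : ∀ s ∈ S, ∃ w ∈ W, (∀ t ∈ S, w t = if t = s then 1 else 0) := by
    intro s hs
    obtain ⟨w, hw, h0, hne⟩ := hmin s hs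
    have hws : w s ≠ 0 := by
      intro h
      apply hne
      refine hS w hw fun t ht => ?_
      by_cases hts : t = s
      · rw [hts]; exact h
      · exact h0 t (Finset.mem_erase.2 ⟨hts, ht⟩)
    refine ⟨(w s)⁻¹ • w, W.smul_mem _ hw, fun t ht => ?_⟩
    by_cases hts : t = s
    · rw [if_pos hts, hts, Pi.smul_apply, smul_eq_mul, inv_mul_cancel₀ hws]
    · rw [if_neg hts, Pi.smul_apply, h0 t (Finset.mem_erase.2 ⟨hts, ht⟩), smul_zero]
  let e : ι → ι → K := fun s => if hs : s ∈ S then (hex s hs).choose else 0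
  have he : ∀ s (hs : s ∈ S), e s = (hex s hs).choose := fun s hs => by simp only [e, dif_pos hs]
  have he1 : ∀ s ∈ S, e s ∈ W := fun s hs => by rw [he s hs]; exact (hex s hs).choose_spec.1
  have he2 : ∀ s ∈ S, ∀ t ∈ S, e s t = if t = s then 1 else 0 := fun s hs t ht => by
    rw [he s hs]; exact (hex s hs).choose_spec.2 t ht
  refine ⟨S, e, he1, he2, hS, fun w hw => ?_⟩
  rw [← sub_eq_zero]
  refine hS _ (W.sub_mem hw (W.sum_mem fun s hs => W.smul_mem _ (he1 s hs))) fun t ht => ?_
  rw [Pi.sub_apply, Finset.sum_apply, Finset.sum_eq_single t]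
  · rw [Pi.smul_apply, he2 t ht t ht, if_pos rfl, smul_eq_mul, mul_one, sub_self]
  · intro s hs hst
    rw [Pi.smul_apply, he2 s hs t ht, if_neg (Ne.symm hst), smul_zero]
  · exact fun h => absurd ht h

/-- A field endomorphism that preserves the space fixes the echelon basis. -/
theorem ech_fixed {W : Submodule K (ι → K)} {S : Finset ι} {e : ι → ι → K} [DecidableEq ι]
    (h1 : ∀ s ∈ S, e s ∈ W) (h2 : ∀ s ∈ S, ∀ t ∈ S, e s t = if t = s then 1 else 0)
    (h3 : ∀ w ∈ W, (∀ s ∈ S, w s = 0) → w = 0) (σ : K →+* K)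
    (hσ : ∀ w ∈ W, (fun i => σ (w i)) ∈ W) {s : ι} (hs : s ∈ S) (i : ι) :
    σ (e s i) = e s i := by
  have h : (fun i => σ (e s i)) - e s = 0 := by
    refine h3 _ (W.sub_mem (hσ _ (h1 s hs)) (h1 s hs)) fun t ht => ?_
    rw [Pi.sub_apply, h2 s hs t ht]
    split_ifs
    · rw [map_one, sub_self]
    · rw [map_zero, sub_self]
  exact congrFun (sub_eq_zero.1 h) i

/-- **Descent**: a finite-dimensional space of series that is preserved by a set of field
endomorphisms is spanned by its fixed vectors. -/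
theorem span_fixed (W : Submodule K (ι → K)) [FiniteDimensional K W] (H : Set (K →+* K))
    (hH : ∀ σ ∈ H, ∀ w ∈ W, (fun i => σ (w i)) ∈ W) :
    W = Submodule.span K {w | w ∈ W ∧ ∀ σ ∈ H, ∀ i, σ (w i) = w i} := by
  classical
  obtain ⟨S, e, h1, h2, h3, h4⟩ := exists_ech W
  refine le_antisymm (fun w hw => ?_) (Submodule.span_le.2 fun w hw => hw.1)
  rw [h4 w hw]
  exact Submodule.sum_mem _ fun s hs => Submodule.smul_mem _ _ (Submodule.subset_span
    ⟨h1 s hs, fun σ hσ i => ech_fixed h1 h2 h3 σ (hH σ hσ) hs i⟩)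

end ech

/-! ### Automorphisms -/

section aut

variable {k K : Type*} [Field k] [Field K] [Algebra k K]

/-- The translation of the polynomial ring by constants. -/
noncomputable def transl {B : Type*} (c : B → k) : MvPolynomial B k ≃ₐ[k] MvPolynomial B k :=
  AlgEquiv.ofAlgHom (MvPolynomial.aeval fun b => MvPolynomial.X b + MvPolynomial.C (c b))
    (MvPolynomial.aeval fun b => MvPolynomial.X b - MvPolynomial.C (c b))
    (by
      apply MvPolynomial.algHom_ext
      intro b
      simp [MvPolynomial.algebraMap_eq])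
    (by
      apply MvPolynomial.algHom_ext
      intro b
      simp [MvPolynomial.algebraMap_eq])

/-- **A transcendental number can be translated** by an automorphism. -/
theorem exists_aut_add [IsAlgClosed K] {x : K} (hx : Transcendental k x) (c : k) :
    ∃ σ : K ≃ₐ[k] K, σ x = x + algebraMap k K c := by
  classical
  have hx' : AlgebraicIndepOn k id ({x} : Set K) := by
    have : Subsingleton ({x} : Set K) := by
      rw [Set.subsingleton_coe]
      exact Set.subsingleton_singleton
    exact (algebraicIndependent_singleton_iff (⟨x, rfl⟩ : ({x} : Set K))).2 hx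
  obtain ⟨B, hB, ht⟩ := exists_isTranscendenceBasis_superset hx'
  have hxB : x ∈ B := hB rfl
  let _ := IsAlgClosed.isAlgClosure_of_transcendence_basis _ ht
  let θ : Algebra.adjoin k (Set.range ((↑) : B → K)) ≃ₐ[k]
      Algebra.adjoin k (Set.range ((↑) : B → K)) :=
    (ht.1.aevalEquiv.symm.trans (transl (fun b : B => if (b : K) = x then c else 0))).trans
      ht.1.aevalEquiv
  let σ : K ≃+* K := IsAlgClosure.equivOfEquiv K K θ.toRingEquiv
  have hσ : ∀ a : Algebra.adjoin k (Set.range ((↑) : B → K)), σ (a : K) = (θ a : K) := fun a =>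
    IsAlgClosure.equivOfEquiv_algebraMap K K θ.toRingEquiv a
  have hk : ∀ r : k, σ (algebraMap k K r) = algebraMap k K r := by
    intro r
    have h := hσ (algebraMap k _ r)
    rw [AlgEquiv.commutes] at h
    exact h
  refine ⟨AlgEquiv.ofRingEquiv (f := σ) hk, ?_⟩
  change σ x = _
  have h1 : ht.1.aevalEquiv (MvPolynomial.X ⟨x, hxB⟩) =
      ⟨x, Algebra.subset_adjoin ⟨⟨x, hxB⟩, rfl⟩⟩ := by
    apply Subtype.ext
    have := ht.1.algebraMap_aevalEquiv (MvPolynomial.X ⟨x, hxB⟩)
    rw [MvPolynomial.aeval_X] at this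
    exact this
  have h2 := hσ (ht.1.aevalEquiv (MvPolynomial.X ⟨x, hxB⟩))
  have h3 : θ (ht.1.aevalEquiv (MvPolynomial.X ⟨x, hxB⟩)) = ht.1.aevalEquiv
      (MvPolynomial.X ⟨x, hxB⟩ + MvPolynomial.C c) := by
    change ht.1.aevalEquiv (transl _ (ht.1.aevalEquiv.symm (ht.1.aevalEquiv _))) = _
    rw [AlgEquiv.symm_apply_apply]
    congr 1
    change MvPolynomial.aeval (fun b : B => (MvPolynomial.X b : MvPolynomial B k) +
      MvPolynomial.C (if (b : K) = x then c else 0)) (MvPolynomial.X ⟨x, hxB⟩) = _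
    rw [MvPolynomial.aeval_X]
    change (MvPolynomial.X ⟨x, hxB⟩ : MvPolynomial B k) +
      MvPolynomial.C (if x = x then c else 0) = _
    rw [if_pos rfl]
  rw [h3, h1] at h2
  change σ x = _ at h2
  rw [h2]
  have h4 := ht.1.algebraMap_aevalEquiv (MvPolynomial.X ⟨x, hxB⟩ + MvPolynomial.C c)
  have h5 : MvPolynomial.aeval (fun b : B => (b : K))
      ((MvPolynomial.X ⟨x, hxB⟩ : MvPolynomial B k) + MvPolynomial.C c) =
      x + algebraMap k K c := by
    simp
  exact h4.trans h5

/-- **An element with a finite orbit is algebraic.** -/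
theorem algebraic_of_finite_orbit [IsAlgClosed K] [CharZero K] {x : K}
    (h : (Set.range fun σ : K ≃ₐ[k] K => σ x).Finite) : IsAlgebraic k x := by
  by_contra hx
  have hinj : Function.Injective fun n : ℕ => x + (n : K) := by
    intro a b hab
    have h1 : x + (a : K) = x + (b : K) := hab
    exact_mod_cast add_left_cancel h1
  refine Set.infinite_range_of_injective hinj (h.subset ?_)
  rintro _ ⟨n, rfl⟩
  obtain ⟨σ, hσ⟩ := exists_aut_add (k := k) hx (n : k)
  refine ⟨σ, ?_⟩
  rw [map_natCast] at hσ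
  exact hσ

/-- An element that is fixed by a subgroup of finite index is algebraic. -/
theorem algebraic_of_fixed [IsAlgClosed K] [CharZero K] {x : K} (H : Subgroup (K ≃ₐ[k] K))
    [H.FiniteIndex] (h : ∀ σ ∈ H, σ x = x) : IsAlgebraic k x := by
  apply algebraic_of_finite_orbit (k := k)
  have hf : Finite ((K ≃ₐ[k] K) ⧸ H) := inferInstance
  let f : (K ≃ₐ[k] K) ⧸ H → K := Quotient.lift (fun σ : K ≃ₐ[k] K => σ x) (by
    intro σ τ hst
    have h1 : σ⁻¹ * τ ∈ H := QuotientGroup.leftRel_apply.1 hst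
    have h2 := h _ h1
    have h3 : σ ((σ⁻¹ * τ) x) = τ x := by
      rw [AlgEquiv.mul_apply]
      exact AlgEquiv.apply_symm_apply σ (τ x)
    rw [h2] at h3
    exact h3)
  refine (Set.finite_range f).subset ?_
  rintro _ ⟨σ, rfl⟩
  exact ⟨(σ : (K ≃ₐ[k] K) ⧸ H), rfl⟩

end aut

/-! ### Descent to algebraic numbers -/

section desc

variable {k K : Type*} [Field k] [Field K] [Algebra k K] [IsAlgClosed K] [CharZero K]
  {ι : Type*}

/-- **Descent.** A finite-dimensional space of series over an algebraically closed field with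
finitely many conjugates has its reduced echelon basis over the algebraic numbers. -/
theorem exists_ech_algebraic [DecidableEq ι] (W : Submodule K (ι → K)) [FiniteDimensional K W]
    (hfin : (Set.range fun σ : K ≃ₐ[k] K => (fun (w : ι → K) i => σ (w i)) '' (W : Set (ι → K))).Finite) :
    ∃ (S : Finset ι) (e : ι → ι → K), (∀ s ∈ S, e s ∈ W) ∧
      (∀ s ∈ S, ∀ t ∈ S, e s t = if t = s then 1 else 0) ∧
      (∀ w ∈ W, (∀ s ∈ S, w s = 0) → w = 0) ∧ (∀ w ∈ W, w = ∑ s ∈ S, w s • e s) ∧
      ∀ s ∈ S, ∀ i, IsAlgebraic k (e s i) := by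
  classical
  obtain ⟨S, e, h1, h2, h3, h4⟩ := exists_ech W
  refine ⟨S, e, h1, h2, h3, h4, fun s hs i => ?_⟩
  apply algebraic_of_finite_orbit
  -- the conjugate of `e s` depends only on the conjugate of `W`
  have key : ∀ σ τ : K ≃ₐ[k] K, (fun (w : ι → K) i => σ (w i)) '' (W : Set (ι → K)) =
      (fun (w : ι → K) i => τ (w i)) '' (W : Set (ι → K)) → σ (e s i) = τ (e s i) := by
    intro σ τ hst
    have h5 : ∀ w ∈ W, (fun j => (((τ.trans σ.symm : K ≃ₐ[k] K) : K ≃+* K) : K →+* K) (w j)) ∈ W := by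
      intro w hw
      have h6 : (fun j => τ (w j)) ∈ (fun (w : ι → K) i => τ (w i)) '' (W : Set (ι → K)) :=
        ⟨w, hw, rfl⟩
      rw [← hst] at h6
      obtain ⟨w', hw', h7⟩ := h6
      have h8 : (fun j => (((τ.trans σ.symm : K ≃ₐ[k] K) : K ≃+* K) : K →+* K) (w j)) = w' := by
        funext j
        have h9 := congrFun h7 j
        change σ (w' j) = τ (w j) at h9
        change σ.symm (τ (w j)) = w' j
        rw [← h9, AlgEquiv.symm_apply_apply]
      rw [h8]
      exact hw'
    have h10 := ech_fixed h1 h2 h3 _ h5 hs i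
    change σ.symm (τ (e s i)) = e s i at h10
    rw [← AlgEquiv.apply_symm_apply σ (τ (e s i)), h10]
  have hsub : (Set.range fun σ : K ≃ₐ[k] K => σ (e s i)) ⊆
      (fun T : Set (ι → K) => if h : ∃ σ : K ≃ₐ[k] K,
        (fun (w : ι → K) i => σ (w i)) '' (W : Set (ι → K)) = T then h.choose (e s i) else 0) ''
      (Set.range fun σ : K ≃ₐ[k] K => (fun (w : ι → K) i => σ (w i)) '' (W : Set (ι → K))) := by
    rintro _ ⟨σ, rfl⟩
    refine ⟨_, ⟨σ, rfl⟩, ?_⟩
    have hex : ∃ τ : K ≃ₐ[k] K, (fun (w : ι → K) i => τ (w i)) '' (W : Set (ι → K)) =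
        (fun (w : ι → K) i => σ (w i)) '' (W : Set (ι → K)) := ⟨σ, rfl⟩
    change (if h : ∃ τ : K ≃ₐ[k] K, (fun (w : ι → K) i => τ (w i)) '' (W : Set (ι → K)) =
        (fun (w : ι → K) i => σ (w i)) '' (W : Set (ι → K)) then h.choose (e s i) else 0) = _
    rw [dif_pos hex]
    exact key _ _ hex.choose_spec
  exact (hfin.image _).subset hsub

end desc

end Vale.Agent.P022.H116
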