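import Vale.Agent.P022.H116.Desc

/-!
From the automorphisms of an algebraically closed field acting on a finite set with
finite-dimensional spaces of representatives to the absolute Galois group: number fields, lifts,
open kernel.
-/

set_option linter.unusedSectionVars false

namespace Vale.Agent.P022.H116

open Module Polynomial IntermediateField

/-! ### Lifts -/

/-- **Every automorphism of a subfield extends** to an algebraically closed field. -/
theorem exists_lift {L K : Type*} [Field L] [Field K] [IsAlgClosed K] (j : L →+* K)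
    (τ : L ≃+* L) : ∃ σ : K ≃+* K, ∀ x, σ (j x) = j (τ x) := by
  let _ := j.toAlgebra
  obtain ⟨B, hB⟩ := exists_isTranscendenceBasis L K
  let _ := IsAlgClosed.isAlgClosure_of_transcendence_basis _ hB
  let θ : Algebra.adjoin L (Set.range ((↑) : B → K)) ≃+*
      Algebra.adjoin L (Set.range ((↑) : B → K)) :=
    hB.1.aevalEquiv.symm.toRingEquiv.trans
      ((MvPolynomial.mapEquiv B τ).trans hB.1.aevalEquiv.toRingEquiv)
  let σ : K ≃+* K := IsAlgClosure.equivOfEquiv K K θ
  refine ⟨σ, fun x => ?_⟩
  have h1 := IsAlgClosure.equivOfEquiv_algebraMap K K θ (algebraMap L _ x)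
  have h2 : θ (algebraMap L _ x) = algebraMap L _ (τ x) := by
    change hB.1.aevalEquiv (MvPolynomial.map (τ : L →+* L)
      (hB.1.aevalEquiv.symm (algebraMap L _ x))) = _
    rw [AlgEquiv.commutes, MvPolynomial.algebraMap_eq, MvPolynomial.map_C]
    exact hB.1.aevalEquiv.commutes (τ x)
  rw [h2] at h1
  exact h1

/-- The relative version of `exists_lift`. -/
theorem exists_lift_alg {k L K : Type*} [Field k] [Field L] [Field K] [Algebra k L] [Algebra k K]
    [IsAlgClosed K] (j : L →ₐ[k] K) (τ : L ≃ₐ[k] L) :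
    ∃ σ : K ≃ₐ[k] K, ∀ x, σ (j x) = j (τ x) := by
  obtain ⟨σ, hσ⟩ := exists_lift (j : L →+* K) (τ : L ≃+* L)
  refine ⟨AlgEquiv.ofRingEquiv (f := σ) fun r => ?_, fun x => hσ x⟩
  have h := hσ (algebraMap k L r)
  have h1 : (j : L →+* K) (algebraMap k L r) = algebraMap k K r := j.commutes r
  have h2 : (τ : L ≃+* L) (algebraMap k L r) = algebraMap k L r := τ.commutes r
  rw [h2, h1] at h
  exact h

section field

variable {k K : Type*} [Field k] [Field K] [Algebra k K] [IsAlgClosed K] [CharZero K]

/-- **Conjugate elements are conjugate under automorphisms.** -/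
theorem exists_conj {x y : K} (hx : IsAlgebraic k x) (hy : aeval y (minpoly k x) = 0) :
    ∃ σ : K ≃ₐ[k] K, σ x = y := by
  have hx' : x ∈ algebraicClosure k K := mem_algebraicClosure_iff.2 hx
  have hy' : y ∈ algebraicClosure k K :=
    mem_algebraicClosure_iff.2 ⟨minpoly k x, minpoly.ne_zero hx.isIntegral, hy⟩
  have h1 : aeval (⟨y, hy'⟩ : algebraicClosure k K)
      (minpoly k (⟨x, hx'⟩ : algebraicClosure k K)) = 0 := by
    apply Subtype.ext
    rw [IntermediateField.minpoly_eq]
    have h2 := Polynomial.aeval_algebraMap_apply K (⟨y, hy'⟩ : algebraicClosure k K)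
      (minpoly k x)
    have h3 : algebraMap (algebraicClosure k K) K ⟨y, hy'⟩ = y := rfl
    rw [h3, hy] at h2
    exact h2.symm
  have h4 : Normal k (algebraicClosure k K) := IsAlgClosure.normal k _
  have h5 : IsAlgebraic k (⟨x, hx'⟩ : algebraicClosure k K) :=
    Algebra.IsAlgebraic.isAlgebraic _
  obtain ⟨τ, hτ⟩ := minpoly.exists_algEquiv_of_root' h5 h1
  obtain ⟨σ, hσ⟩ := exists_lift_alg (algebraicClosure k K).val τ
  refine ⟨σ, ?_⟩
  have h6 := hσ ⟨x, hx'⟩
  rw [hτ] at h6
  exact h6

/-- The degree of an element fixed by a subgroup is at most the index. -/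
theorem degree_le_index (H : Subgroup (K ≃ₐ[k] K)) [H.FiniteIndex] {x : K}
    (h : ∀ σ ∈ H, σ x = x) : (minpoly k x).natDegree ≤ H.index := by
  classical
  have hk : CharZero k := (RingHom.charZero_iff (algebraMap k K).injective).2 inferInstance
  have hx : IsAlgebraic k x := algebraic_of_fixed H h
  have hf : Finite ((K ≃ₐ[k] K) ⧸ H) := inferInstance
  let f : (K ≃ₐ[k] K) ⧸ H → K := Quotient.lift (fun σ : K ≃ₐ[k] K => σ x) (by
    intro σ τ hst
    have h1 : σ⁻¹ * τ ∈ H := QuotientGroup.leftRel_apply.1 hst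
    have h2 := h _ h1
    have h3 : σ ((σ⁻¹ * τ) x) = τ x := by
      rw [AlgEquiv.mul_apply]
      exact AlgEquiv.apply_symm_apply σ (τ x)
    rw [h2] at h3
    exact h3)
  have hsub : (minpoly k x).rootSet K ⊆ Set.range f := by
    intro y hy
    obtain ⟨σ, hσ⟩ := exists_conj hx (Polynomial.aeval_eq_zero_of_mem_rootSet hy)
    exact ⟨(σ : (K ≃ₐ[k] K) ⧸ H), hσ⟩
  have hsep : (minpoly k x).Separable := (minpoly.irreducible hx.isIntegral).separable
  rw [← Polynomial.card_rootSet_eq_natDegree (K := K) hsep (IsAlgClosed.splits _),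
    ← Nat.card_eq_fintype_card]
  have hfr : (Set.range f).Finite := Set.finite_range f
  calc Nat.card ((minpoly k x).rootSet K) = ((minpoly k x).rootSet K).ncard := rfl
    _ ≤ (Set.range f).ncard := Set.ncard_le_ncard hsub hfr
    _ = Nat.card (Set.range f) := rfl
    _ ≤ Nat.card ((K ≃ₐ[k] K) ⧸ H) := Finite.card_range_le f
    _ = H.index := rfl

/-- An extension with bounded degrees is finite. -/
theorem finite_of_bounded [CharZero k] (F : IntermediateField k K) (n : ℕ)
    (halg : ∀ x ∈ F, IsAlgebraic k x)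
    (h : ∀ x ∈ F, (minpoly k x).natDegree ≤ n) : FiniteDimensional k F := by
  have hfin : ((fun x : K => (minpoly k x).natDegree) '' (F : Set K)).Finite :=
    (Set.finite_Iic n).subset (by rintro _ ⟨x, hx, rfl⟩; exact h x hx)
  obtain ⟨_, ⟨x, hx, rfl⟩, hmax'⟩ := Set.exists_max_image
    ((fun x : K => (minpoly k x).natDegree) '' (F : Set K)) id hfin ⟨_, 0, F.zero_mem, rfl⟩
  have hmax : ∀ y ∈ F, (minpoly k y).natDegree ≤ (minpoly k x).natDegree :=
    fun y hy => hmax' _ ⟨y, hy, rfl⟩
  have hxi : IsIntegral k x := (halg x hx).isIntegral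
  have hfx : FiniteDimensional k k⟮x⟯ := IntermediateField.adjoin.finiteDimensional hxi
  have hle : F ≤ k⟮x⟯ := by
    intro y hy
    let E : IntermediateField k K := IntermediateField.adjoin k {x, y}
    have hE : FiniteDimensional k E := IntermediateField.finiteDimensional_adjoin (by
      intro z hz
      rcases hz with rfl | hz
      · exact hxi
      · rw [Set.mem_singleton_iff.1 hz]; exact (halg y hy).isIntegral)
    obtain ⟨α, hα⟩ := Field.exists_primitive_element k E
    have hα2 := (Field.primitive_element_iff_minpoly_natDegree_eq k α).1 hα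
    have hEF : E ≤ F := IntermediateField.adjoin_le_iff.2 (by
      intro z hz
      rcases hz with rfl | hz
      · exact hx
      · rw [Set.mem_singleton_iff.1 hz]; exact hy)
    have h1 := hmax (α : K) (hEF α.2)
    rw [IntermediateField.minpoly_eq] at hα2
    have h2 : k⟮x⟯ ≤ E := IntermediateField.adjoin_le_iff.2 (by
      intro z hz
      rw [Set.mem_singleton_iff.1 hz]
      exact IntermediateField.subset_adjoin k _ (Or.inl rfl))
    have h3 : finrank k E ≤ finrank k k⟮x⟯ := by
      rw [IntermediateField.adjoin.finrank hxi, ← hα2]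
      exact h1
    have h4 := IntermediateField.eq_of_le_of_finrank_le h2 h3
    rw [h4]
    exact IntermediateField.subset_adjoin k _ (Or.inr rfl)
  exact FiniteDimensional.of_injective (IntermediateField.inclusion hle).toLinearMap
    (IntermediateField.inclusion hle).injective

/-- **The fixed field of a subgroup of finite index is finite.** -/
theorem finite_fixedField (H : Subgroup (K ≃ₐ[k] K)) [H.FiniteIndex] :
    FiniteDimensional k (IntermediateField.fixedField H) := by
  have hk : CharZero k := (RingHom.charZero_iff (algebraMap k K).injective).2 inferInstance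
  refine finite_of_bounded _ H.index (fun x hx => algebraic_of_fixed H ?_)
    (fun x hx => degree_le_index H ?_)
  · exact (IntermediateField.mem_fixedField_iff H x).1 hx
  · exact (IntermediateField.mem_fixedField_iff H x).1 hx

/-- **Finite sets with spaces of representatives are defined over finite extensions.** -/
theorem exists_field {ι V : Type*} [Finite V] [MulAction (K ≃ₐ[k] K) V]
    (W : V → Submodule K (ι → K)) (hfd : ∀ v, FiniteDimensional K (W v)) (hne : ∀ v, W v ≠ ⊥)
    (hact : ∀ (σ : K ≃ₐ[k] K) (v : V), ∀ w ∈ W v, (fun i => σ (w i)) ∈ W (σ • v))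
    (hinj : ∀ (v v' : V) (w : ι → K), w ∈ W v → w ∈ W v' → w ≠ 0 → v = v') :
    ∃ F : IntermediateField k K, FiniteDimensional k F ∧
      (∀ v, ∃ w ∈ W v, w ≠ 0 ∧ ∀ i, w i ∈ F) ∧
      ∀ σ : K ≃ₐ[k] K, (∀ x ∈ F, σ x = x) → ∀ v : V, σ • v = v := by
  classical
  let H : Subgroup (K ≃ₐ[k] K) := (MulAction.toPermHom (K ≃ₐ[k] K) V).ker
  have hH : H.FiniteIndex := inferInstance
  have hw : ∀ v, ∃ w ∈ W v, w ≠ 0 ∧ ∀ i, w i ∈ IntermediateField.fixedField H := by
    intro v
    have := hfd v
    obtain ⟨S, e, h1, h2, h3, h4⟩ := exists_ech (W v)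
    obtain ⟨w, hw, hw0⟩ := Submodule.exists_mem_ne_zero_of_ne_bot (hne v)
    have hS : S.Nonempty := by
      by_contra hS
      rw [Finset.not_nonempty_iff_eq_empty] at hS
      apply hw0
      rw [h4 w hw, hS, Finset.sum_empty]
    obtain ⟨s, hs⟩ := hS
    refine ⟨e s, h1 s hs, fun h0 => ?_, fun i => ?_⟩
    · have h5 := h2 s hs s hs
      rw [if_pos rfl, h0] at h5
      exact zero_ne_one h5
    · rw [IntermediateField.mem_fixedField_iff]
      intro σ hσ
      refine ech_fixed h1 h2 h3 ((σ : K ≃+* K) : K →+* K) (fun w hw => ?_) hs i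
      have h6 := hact σ v w hw
      have h7 : σ • v = v := by
        have h8 : MulAction.toPermHom (K ≃ₐ[k] K) V σ = 1 := hσ
        exact congrFun (congrArg (fun π : Equiv.Perm V => (π : V → V)) h8) v
      rw [h7] at h6
      exact h6
  refine ⟨IntermediateField.fixedField H, finite_fixedField H, hw, fun σ hσ v => ?_⟩
  obtain ⟨w, hwv, hw0, hwF⟩ := hw v
  have h1 := hact σ v w hwv
  have h2 : (fun i => σ (w i)) = w := funext fun i => hσ _ (hwF i)
  rw [h2] at h1
  exact hinj _ _ w h1 hwv hw0

/-- **Factorisation through the absolute Galois group**, with open kernel. -/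
theorem factor {L G : Type*} [Field L] [Algebra k L] [IsAlgClosed L] [Group G]
    (j : L →ₐ[k] K) (ρ : (K ≃ₐ[k] K) →* G) (F : IntermediateField k K)
    [FiniteDimensional k F] (hρ : ∀ σ : K ≃ₐ[k] K, (∀ x ∈ F, σ x = x) → ρ σ = 1) :
    ∃ ρ' : (L ≃ₐ[k] L) →* G, (∀ (σ : K ≃ₐ[k] K) (τ : L ≃ₐ[k] L),
      (∀ x, σ (j x) = j (τ x)) → ρ' τ = ρ σ) ∧ IsOpen (ρ'.ker : Set (L ≃ₐ[k] L)) := by
  classical
  -- the field `F` lies in the image of `j`
  have hF : ∀ x ∈ F, ∃ y : L, j y = x := by
    intro x hx
    have hxi : IsIntegral k x := by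
      have h1 : IsIntegral k (⟨x, hx⟩ : F) := Algebra.IsIntegral.isIntegral _
      exact h1.map F.val
    have h2 : ((minpoly k x).map (algebraMap k L)).Splits := IsAlgClosed.splits _
    have h3 : aeval x (minpoly k x) = 0 := minpoly.aeval k x
    have h4 : ((minpoly k x).map (algebraMap k L)).map (j : L →+* K) =
        (minpoly k x).map (algebraMap k K) := by
      rw [Polynomial.map_map]
      congr 1
      exact j.comp_algebraMap
    have h5 : x ∈ ((minpoly k x).map (algebraMap k K)).roots := by
      rw [Polynomial.mem_roots (Polynomial.map_ne_zero (minpoly.ne_zero hxi)), IsRoot.def,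
        Polynomial.eval_map_algebraMap]
      exact h3
    rw [← h4, h2.roots_map (j : L →+* K), Multiset.mem_map] at h5
    obtain ⟨y, -, hy⟩ := h5
    exact ⟨y, hy⟩
  have hwd : ∀ σ σ' : K ≃ₐ[k] K, (∀ x : L, σ (j x) = σ' (j x)) → ρ σ = ρ σ' := by
    intro σ σ' h
    have h1 : ρ (σ⁻¹ * σ') = 1 := by
      apply hρ
      intro x hx
      obtain ⟨y, rfl⟩ := hF x hx
      rw [AlgEquiv.mul_apply, ← h y]
      exact AlgEquiv.symm_apply_apply σ (j y)
    rw [map_mul, map_inv, inv_mul_eq_one] at h1
    exact h1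
  choose l hl using fun τ : L ≃ₐ[k] L => exists_lift_alg j τ
  let ρ' : (L ≃ₐ[k] L) →* G :=
    { toFun := fun τ => ρ (l τ)
      map_one' := by
        rw [← map_one ρ]
        refine hwd _ _ fun x => ?_
        rw [hl]
        rfl
      map_mul' := fun τ τ' => by
        rw [← map_mul]
        refine hwd _ _ fun x => ?_
        rw [hl, AlgEquiv.mul_apply, AlgEquiv.mul_apply, hl, hl] }
  have hρ' : ∀ (σ : K ≃ₐ[k] K) (τ : L ≃ₐ[k] L), (∀ x, σ (j x) = j (τ x)) → ρ' τ = ρ σ :=
    fun σ τ h => hwd _ _ fun x => by rw [hl, h]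
  refine ⟨ρ', hρ', ?_⟩
  -- open kernel
  let F' : IntermediateField k L := F.comap j
  have hfd : FiniteDimensional k F' := by
    let g : F' →ₗ[k] F :=
      { toFun := fun x => ⟨j x, x.2⟩
        map_add' := fun x y => Subtype.ext (map_add j _ _)
        map_smul' := fun r x => Subtype.ext (map_smul j r _) }
    refine FiniteDimensional.of_injective g fun x y h => ?_
    exact Subtype.ext (j.injective (congrArg Subtype.val h))
  have hle : F'.fixingSubgroup ≤ ρ'.ker := by
    intro τ hτ
    rw [MonoidHom.mem_ker]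
    change ρ (l τ) = 1
    apply hρ
    intro x hx
    obtain ⟨y, rfl⟩ := hF x hx
    rw [hl]
    have h1 : y ∈ F' := hx
    rw [(IntermediateField.mem_fixingSubgroup_iff F' τ).1 hτ y h1]
  exact Subgroup.isOpen_mono hle (IntermediateField.fixingSubgroup_isOpen F')

/-- Algebraic elements lie in the image of an algebraic closure. -/
theorem exists_preimage {L : Type*} [Field L] [Algebra k L] [IsAlgClosed L] (j : L →ₐ[k] K)
    {x : K} (hx : IsAlgebraic k x) : ∃ y : L, j y = x := by
  have hxi : IsIntegral k x := hx.isIntegral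
  have h2 : ((minpoly k x).map (algebraMap k L)).Splits := IsAlgClosed.splits _
  have h3 : aeval x (minpoly k x) = 0 := minpoly.aeval k x
  have h4 : ((minpoly k x).map (algebraMap k L)).map (j : L →+* K) =
      (minpoly k x).map (algebraMap k K) := by
    rw [Polynomial.map_map]
    congr 1
    exact j.comp_algebraMap
  have h5 : x ∈ ((minpoly k x).map (algebraMap k K)).roots := by
    rw [Polynomial.mem_roots (Polynomial.map_ne_zero (minpoly.ne_zero hxi)), IsRoot.def,
      Polynomial.eval_map_algebraMap]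
    exact h3
  rw [← h4, h2.roots_map (j : L →+* K), Multiset.mem_map] at h5
  obtain ⟨y, -, hy⟩ := h5
  exact ⟨y, hy⟩

/-- **The Galois action.** An action of the automorphisms of `K` on a finite group `V` with
finite-dimensional spaces of representatives gives a homomorphism of the absolute Galois group
of `k` with open kernel, and all classes have representatives with coefficients in `L`. -/
theorem galois_action {L ι V : Type*} [Field L] [Algebra k L] [IsAlgClosed L] [Group V] [Finite V]
    (j : L →ₐ[k] K) (ρ : (K ≃ₐ[k] K) →* MulAut V)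
    (W : V → Submodule K (ι → K)) (hfd : ∀ v, FiniteDimensional K (W v)) (hne : ∀ v, W v ≠ ⊥)
    (hact : ∀ (σ : K ≃ₐ[k] K) (v : V), ∀ w ∈ W v, (fun i => σ (w i)) ∈ W (ρ σ v))
    (hinj : ∀ (v v' : V) (w : ι → K), w ∈ W v → w ∈ W v' → w ≠ 0 → v = v') :
    ∃ ρ' : (L ≃ₐ[k] L) →* MulAut V, (∀ (σ : K ≃ₐ[k] K) (τ : L ≃ₐ[k] L),
      (∀ x, σ (j x) = j (τ x)) → ρ' τ = ρ σ) ∧ IsOpen (ρ'.ker : Set (L ≃ₐ[k] L)) ∧
      ∀ v, ∃ (w : ι → K) (u : ι → L), w ∈ W v ∧ w ≠ 0 ∧ (∀ i, j (u i) = w i) ∧
        ∃ F : IntermediateField k L, FiniteDimensional k F ∧ ∀ i, u i ∈ F := by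
  let _ : MulAction (K ≃ₐ[k] K) V := MulAction.compHom V ρ
  obtain ⟨F, hF, h1, h2⟩ := exists_field W hfd hne (fun σ v w hw => hact σ v w hw) hinj
  obtain ⟨ρ', h3, h4⟩ := factor j ρ F fun σ hσ => by
    ext v
    exact h2 σ hσ v
  refine ⟨ρ', h3, h4, fun v => ?_⟩
  obtain ⟨w, hw, hw0, hwF⟩ := h1 v
  have hal : ∀ i, ∃ y : L, j y = w i := by
    intro i
    have h5 : IsIntegral k (⟨w i, hwF i⟩ : F) := Algebra.IsIntegral.isIntegral _
    exact exists_preimage j (h5.map F.val).isAlgebraic
  choose u hu using hal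
  refine ⟨w, u, hw, hw0, hu, F.comap j, ?_, fun i => ?_⟩
  · let g : (F.comap j : IntermediateField k L) →ₗ[k] F :=
      { toFun := fun x => ⟨j x, x.2⟩
        map_add' := fun x y => Subtype.ext (map_add j _ _)
        map_smul' := fun r x => Subtype.ext (map_smul j r _) }
    refine FiniteDimensional.of_injective g fun x y h => ?_
    exact Subtype.ext (j.injective (congrArg Subtype.val h))
  · change j (u i) ∈ F
    rw [hu i]
    exact hwF i

end field

end Vale.Agent.P022.H116
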