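import Vale.Agent.P022.H472.Lit

/-!
P022, block [HAT]: the finite Fourier transform of `h ↦ f(d h) exp(-2πi d Q(h) / C)`.
-/

open scoped ModularForm MatrixGroups Manifold NumberField
open UpperHalfPlane Matrix CongruenceSubgroup

noncomputable section

namespace Vale.Agent.P022

namespace H116

/-- `exp (2πi n / M)` -/
def e (M : ℕ) (n : ℤ) : ℂ := Complex.exp (2 * Real.pi * Complex.I * (n : ℂ) / M)

theorem e_add (M : ℕ) (x y : ℤ) : e M (x + y) = e M x * e M y := by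
  unfold e
  rw [← Complex.exp_add]
  congr 1
  push_cast
  ring

theorem e_neg (M : ℕ) (x : ℤ) :
    e M (-x) = Complex.exp (-(2 * Real.pi * Complex.I * (x : ℂ) / M)) := by
  unfold e
  congr 1
  push_cast
  ring

theorem e_mul_self {M : ℕ} (hM : 0 < M) (k : ℤ) : e M ((M : ℤ) * k) = 1 := by
  unfold e
  have hM' : (M : ℂ) ≠ 0 := Nat.cast_ne_zero.2 hM.ne'
  rw [show 2 * (Real.pi : ℂ) * Complex.I * (((M : ℤ) * k : ℤ) : ℂ) / M
    = k * (2 * Real.pi * Complex.I) by push_cast; field_simp]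
  exact Complex.exp_int_mul_two_pi_mul_I k

theorem e_congr {M : ℕ} (hM : 0 < M) {x y : ℤ} (h : (M : ℤ) ∣ x - y) : e M x = e M y := by
  obtain ⟨k, hk⟩ := h
  rw [show x = y + (M : ℤ) * k by linear_combination hk, e_add, e_mul_self hM, mul_one]

theorem e_eq_one {M : ℕ} (hM : 0 < M) {x : ℤ} (h : e M x = 1) : (M : ℤ) ∣ x := by
  unfold e at h
  have hM' : (M : ℂ) ≠ 0 := Nat.cast_ne_zero.2 hM.ne'
  have hpi : (2 * (Real.pi : ℂ) * Complex.I) ≠ 0 := Complex.two_pi_I_ne_zero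
  obtain ⟨n, hn⟩ := Complex.exp_eq_one_iff.1 h
  refine ⟨n, ?_⟩
  have h1 : (2 * (Real.pi : ℂ) * Complex.I) * x = (2 * (Real.pi : ℂ) * Complex.I) * (M * n) := by
    rw [div_eq_iff hM'] at hn
    rw [hn]
    ring
  have h2 := mul_left_cancel₀ hpi h1
  exact_mod_cast h2

theorem e_scale (M : ℕ) {k : ℕ} (hk : 0 < k) (x : ℤ) : e (k * M) ((k : ℤ) * x) = e M x := by
  unfold e
  congr 1
  have hk' : (k : ℂ) ≠ 0 := Nat.cast_ne_zero.2 hk.ne'
  push_cast
  rcases Nat.eq_zero_or_pos M with h | h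
  · subst h
    simp
  have hM' : (M : ℂ) ≠ 0 := Nat.cast_ne_zero.2 h.ne'
  field_simp

/-- shift in one variable -/
theorem sum1 (M : ℕ) (F : ℤ → ℂ) (hF : ∀ x, F (x + M) = F x) (t : ℤ) :
    ∑ i : Fin M, F ((i.1 : ℤ) + t) = ∑ i : Fin M, F (i.1 : ℤ) := by
  have key : ∀ G : ℤ → ℂ, (∀ x, G (x + M) = G x) →
      ∑ i : Fin M, G ((i.1 : ℤ) + 1) = ∑ i : Fin M, G (i.1 : ℤ) := by
    intro G hG
    rw [Fin.sum_univ_eq_sum_range (fun i : ℕ => G ((i : ℤ) + 1)),
      Fin.sum_univ_eq_sum_range (fun i : ℕ => G (i : ℤ))]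
    have h1 := Finset.sum_range_succ (fun i : ℕ => G (i : ℤ)) M
    have h2 := Finset.sum_range_succ' (fun i : ℕ => G (i : ℤ)) M
    have h3 := hG 0
    simp only [Nat.cast_add, Nat.cast_one, Nat.cast_zero, zero_add] at h1 h2 h3
    rw [h1, h3] at h2
    exact (add_right_cancel h2).symm
  induction t using Int.induction_on with
  | zero => simp
  | succ t ih =>
    rw [← ih, ← key (fun x => F (x + t)) (fun x => by rw [add_right_comm, hF])]
    refine Finset.sum_congr rfl fun i _ => ?_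
    congr 1
    ring
  | pred t ih =>
    rw [← ih, ← key (fun x => F (x + (-(t : ℤ) - 1))) (fun x => by rw [add_right_comm, hF])]
    refine Finset.sum_congr rfl fun i _ => ?_
    congr 1
    ring

/-- sum over the residues mod `M` -/
def S (M : ℕ) (F : ℤ × ℤ → ℂ) : ℂ := ∑ i : Fin M, ∑ j : Fin M, F ((i.1 : ℤ), (j.1 : ℤ))

theorem S_congr {M : ℕ} {F G : ℤ × ℤ → ℂ} (h : ∀ v, F v = G v) : S M F = S M G := by
  rw [show F = G from funext h]

theorem S_mul (M : ℕ) (F : ℤ × ℤ → ℂ) (z : ℂ) : S M (fun v => F v * z) = S M F * z := by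
  simp only [S, Finset.sum_mul]

theorem per_fst {M : ℕ} {F : ℤ × ℤ → ℂ} (hF : Per M F) (x y : ℤ) : F (x + M, y) = F (x, y) := by
  have := hF (x, y) (1, 0)
  simpa using this

theorem per_snd {M : ℕ} {F : ℤ × ℤ → ℂ} (hF : Per M F) (x y : ℤ) : F (x, y + M) = F (x, y) := by
  have := hF (x, y) (0, 1)
  simpa using this

theorem S_shift {M : ℕ} {F : ℤ × ℤ → ℂ} (hF : Per M F) (t : ℤ × ℤ) :
    S M (fun v => F (v + t)) = S M F := by
  unfold S
  have h1 : ∀ x : ℤ, ∑ j : Fin M, F (x, (j.1 : ℤ) + t.2) = ∑ j : Fin M, F (x, (j.1 : ℤ)) :=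
    fun x => sum1 M (fun y => F (x, y)) (fun y => per_snd hF x y) t.2
  have h2 := sum1 M (fun x => ∑ j : Fin M, F (x, (j.1 : ℤ)))
    (fun x => Finset.sum_congr rfl fun j _ => per_fst hF x j) t.1
  rw [← h2]
  refine Finset.sum_congr rfl fun i _ => ?_
  rw [← h1]
  rfl

/-- a sum over the residues mod `k M` of a function of period `M` -/
theorem sum1_scale (k M : ℕ) (F : ℤ → ℂ) (hF : ∀ x, F (x + M) = F x) :
    ∑ i : Fin (k * M), F (i.1 : ℤ) = k * ∑ i : Fin M, F (i.1 : ℤ) := by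
  have hF' : ∀ (n : ℕ) (x : ℤ), F (x + M * n) = F x := by
    intro n
    induction n with
    | zero => simp
    | succ n ih =>
      intro x
      rw [← ih x, ← hF (x + M * n)]
      congr 1
      push_cast
      ring
  rw [← (finProdFinEquiv (m := k) (n := M)).sum_comp, Fintype.sum_prod_type]
  have : ∀ i : Fin k, ∑ j : Fin M, F ((finProdFinEquiv (i, j)).1 : ℤ) = ∑ j : Fin M, F (j.1 : ℤ) := by
    intro i
    refine Finset.sum_congr rfl fun j _ => ?_
    rw [finProdFinEquiv_apply_val]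
    push_cast
    exact hF' i.1 _
  simp only [this]
  simp

/-- a sum over the residues mod `M k` of a function supported on the multiples of `k` -/
theorem sum1_mult {k : ℕ} (hk : 0 < k) (M : ℕ) (F : ℤ → ℂ) (hF : ∀ x, ¬ (k : ℤ) ∣ x → F x = 0) :
    ∑ i : Fin (M * k), F (i.1 : ℤ) = ∑ i : Fin M, F ((k : ℤ) * (i.1 : ℤ)) := by
  rw [← (finProdFinEquiv (m := M) (n := k)).sum_comp, Fintype.sum_prod_type]
  refine Finset.sum_congr rfl fun i _ => ?_
  rw [Fintype.sum_eq_single (⟨0, hk⟩ : Fin k)]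
  · rw [finProdFinEquiv_apply_val]
    push_cast
    simp
  · intro j hj
    apply hF
    rw [finProdFinEquiv_apply_val]
    push_cast
    intro h
    have h1 : (k : ℤ) ∣ (j.1 : ℤ) := by
      rw [show (j.1 : ℤ) = ((j.1 : ℤ) + k * i.1) - k * i.1 by ring]
      exact dvd_sub h (dvd_mul_right _ _)
    have h2 : k ∣ j.1 := by exact_mod_cast h1
    have h3 := Nat.eq_zero_of_dvd_of_lt h2 j.2
    exact hj (Fin.ext h3)

theorem S_scale (k M : ℕ) {F : ℤ × ℤ → ℂ} (hF : Per M F) : S (k * M) F = k ^ 2 * S M F := by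
  unfold S
  have h1 : ∀ x : ℤ, ∑ j : Fin (k * M), F (x, (j.1 : ℤ)) = k * ∑ j : Fin M, F (x, (j.1 : ℤ)) :=
    fun x => sum1_scale k M (fun y => F (x, y)) (fun y => per_snd hF x y)
  simp only [h1]
  rw [sum1_scale k M (fun x => (k : ℂ) * ∑ j : Fin M, F (x, (j.1 : ℤ)))
    (fun x => by simp only [per_fst hF]), ← Finset.mul_sum]
  ring

theorem S_mult {k : ℕ} (hk : 0 < k) (M : ℕ) (F : ℤ × ℤ → ℂ)
    (hF : ∀ v : ℤ × ℤ, ¬ ((k : ℤ) ∣ v.1 ∧ (k : ℤ) ∣ v.2) → F v = 0) :
    S (M * k) F = S M (fun v => F ((k : ℤ) • v)) := by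
  unfold S
  rw [sum1_mult hk M (fun x => ∑ j : Fin (M * k), F (x, (j.1 : ℤ)))
    (fun x hx => Finset.sum_eq_zero fun j _ => hF _ fun h => hx h.1)]
  refine Finset.sum_congr rfl fun i _ => ?_
  exact sum1_mult hk M (fun y => F ((k : ℤ) * (i.1 : ℤ), y)) (fun y hy => hF _ fun h => hy h.2)

/-- the geometric sum -/
theorem geom {m : ℕ} (hm : 0 < m) (x : ℤ) :
    ∑ k : Fin m, e m ((k.1 : ℤ) * x) = if (m : ℤ) ∣ x then (m : ℂ) else 0 := by
  split_ifs with h
  · have : ∀ k : Fin m, e m ((k.1 : ℤ) * x) = 1 := by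
      intro k
      rw [e_congr hm (y := (m : ℤ) * 0), e_mul_self hm]
      rw [mul_zero, sub_zero]
      exact h.mul_left _
    simp [this]
  · have h1 := sum1 m (fun k => e m (k * x)) (fun k => e_congr hm ⟨x, by ring⟩) 1
    have h2 : ∀ k : ℤ, e m ((k + 1) * x) = e m (k * x) * e m x := by
      intro k
      rw [← e_add]
      congr 1
      ring
    simp only [h2] at h1
    rw [← Finset.sum_mul] at h1
    by_contra h3
    refine h (e_eq_one hm ?_)
    have h4 : (∑ k : Fin m, e m ((k.1 : ℤ) * x)) * (e m x - 1) = 0 := by linear_combination h1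
    rcases mul_eq_zero.1 h4 with h5 | h5
    · exact absurd h5 h3
    · exact sub_eq_zero.1 h5

theorem avg {M m : ℕ} (hm : 0 < m) {F : ℤ × ℤ → ℂ} (hF : Per M F) (t : ℤ × ℤ) (x : ℤ × ℤ → ℤ)
    (h : ∀ (k : ℤ) (v : ℤ × ℤ), F (v + k • t) = F v * e m (k * x v)) :
    S M F = S M (fun v => if (m : ℤ) ∣ x v then F v else 0) := by
  have hm' : (m : ℂ) ≠ 0 := Nat.cast_ne_zero.2 hm.ne'
  have h1 : ∀ k : Fin m, S M (fun v => F v * e m ((k.1 : ℤ) * x v)) = S M F := by
    intro k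
    rw [← S_shift hF ((k.1 : ℤ) • t)]
    exact S_congr fun v => (h _ v).symm
  have h2 : ∑ k : Fin m, S M (fun v => F v * e m ((k.1 : ℤ) * x v)) = m * S M F := by
    simp [h1]
  have h3 : ∑ k : Fin m, S M (fun v => F v * e m ((k.1 : ℤ) * x v)) =
      S M (fun v => F v * ∑ k : Fin m, e m ((k.1 : ℤ) * x v)) := by
    unfold S
    rw [Finset.sum_comm]
    refine Finset.sum_congr rfl fun i _ => ?_
    rw [Finset.sum_comm]
    refine Finset.sum_congr rfl fun j _ => ?_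
    simp only [Finset.mul_sum]
  apply mul_left_cancel₀ hm'
  rw [← h2, h3, mul_comm, ← S_mul]
  refine S_congr fun v => ?_
  rw [geom hm]
  split_ifs <;> ring

/-- restriction to the class `0` mod `m` -/
theorem cls {M m : ℕ} (hm : 0 < m) {F : ℤ × ℤ → ℂ} (hF : Per M F) (hmM : (m : ℤ) ∣ (M : ℤ)) (d : ℤ)
    (hcop : ∀ x : ℤ, (m : ℤ) ∣ d * x → (m : ℤ) ∣ x) (r : ℤ × ℤ → ℤ × ℤ)
    (hr : ∀ t, (m : ℤ) ∣ (r t).1 ∧ (m : ℤ) ∣ (r t).2)
    (h : ∀ (t : ℤ × ℤ) (k : ℤ) (v : ℤ × ℤ),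
      F (v + k • r t) = F v * e m (k * (-(d * (t.1 * v.2 - t.2 * v.1))))) :
    S M F = S M (fun v => if (m : ℤ) ∣ v.1 ∧ (m : ℤ) ∣ v.2 then F v else 0) := by
  rw [avg hm hF (r (1, 0)) (fun v => -(d * (1 * v.2 - 0 * v.1))) (fun k v => h (1, 0) k v)]
  have h1 : ∀ v : ℤ × ℤ, (if (m : ℤ) ∣ -(d * (1 * v.2 - 0 * v.1)) then F v else 0) =
      if (m : ℤ) ∣ v.2 then F v else 0 := by
    intro v
    congr 1
    rw [one_mul, zero_mul, sub_zero, dvd_neg]
    exact propext ⟨hcop _, fun h => h.mul_left _⟩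
  rw [S_congr h1]
  have hF1 : Per M (fun v => if (m : ℤ) ∣ v.2 then F v else 0) := by
    intro v w
    show (if (m : ℤ) ∣ (v + (M : ℤ) • w).2 then F (v + (M : ℤ) • w) else 0) =
      if (m : ℤ) ∣ v.2 then F v else 0
    rw [hF]
    congr 1
    rw [Prod.snd_add, Prod.smul_snd, smul_eq_mul]
    exact propext (dvd_add_left (hmM.mul_right _))
  rw [avg hm hF1 (r (0, 1)) (fun v => -(d * (0 * v.2 - 1 * v.1)))]
  · refine S_congr fun v => ?_
    have h2 : (m : ℤ) ∣ -(d * (0 * v.2 - 1 * v.1)) ↔ (m : ℤ) ∣ v.1 := by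
      rw [one_mul, zero_mul, zero_sub, mul_neg, neg_neg]
      exact ⟨hcop _, fun h => h.mul_left _⟩
    simp only [h2]
    by_cases h3 : (m : ℤ) ∣ v.1 <;> by_cases h4 : (m : ℤ) ∣ v.2 <;> simp [h3, h4]
  · intro k v
    have h2 : (m : ℤ) ∣ (v + k • r (0, 1)).2 ↔ (m : ℤ) ∣ v.2 := by
      rw [Prod.snd_add, Prod.smul_snd, smul_eq_mul]
      exact dvd_add_left ((hr (0, 1)).2.mul_left _)
    simp only [h2]
    split_ifs with h3
    · exact h (0, 1) k v
    · rw [zero_mul]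

end H116

open H116

/-- [HAT] -/
theorem HAT : HATStmt := by
  intro a b c D ha hD hdisc m C' hm hC' hDC f hf A d hAd
  obtain ⟨q, hq⟩ := hDC
  have hq0 : 0 < q := by
    rcases Nat.eq_zero_or_pos q with h | h
    · subst h
      simp at hq
      omega
    · exact h
  have hC : 0 < m ^ 2 * C' := by positivity
  have hmC : (m : ℤ) ∣ ((m ^ 2 * C' : ℕ) : ℤ) := ⟨m * C', by push_cast; ring⟩
  have hfm : ∀ (v w : ℤ × ℤ), f (v + (m : ℤ) • w) = f v := hf
  have hfC : ∀ (v w : ℤ × ℤ), f (v + ((m ^ 2 * C' : ℕ) : ℤ) • w) = f v := by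
    intro v w
    rw [← hfm v (((m : ℤ) * C') • w)]
    congr 1
    rw [smul_smul]
    congr 2
    push_cast
    ring
  have hg : ∀ v : ℤ × ℤ, hatF (m ^ 2 * C') (fun h => f (d • h) * Complex.exp
      (-(2 * Real.pi * Complex.I * ((d * Qf a b c h : ℤ) : ℂ) / (m ^ 2 * C' : ℕ)))) v =
      S (m ^ 2 * C') (fun h => f (d • h) *
        e (m ^ 2 * C') (v.1 * h.2 - v.2 * h.1 - d * Qf a b c h)) := by
    intro v
    unfold hatF S
    refine Finset.sum_congr rfl fun i _ => Finset.sum_congr rfl fun j _ => ?_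
    rw [mul_assoc]
    congr 1
    rw [sub_eq_add_neg (v.1 * _ - v.2 * _), e_add, e_neg, mul_comm]
    rfl
  have hT : ∀ v : ℤ × ℤ, Per (m ^ 2 * C') (fun h => f (d • h) *
        e (m ^ 2 * C') (v.1 * h.2 - v.2 * h.1 - d * Qf a b c h)) := by
    intro v h w
    show f (d • (h + _)) * _ = f (d • h) * _
    congr 1
    · rw [smul_add, smul_comm, hfC]
    · apply e_congr hC
      refine ⟨v.1 * w.2 - v.2 * w.1 - d * (2 * a * h.1 * w.1 + b * (h.1 * w.2 + h.2 * w.1) +
        2 * c * h.2 * w.2 + ((m ^ 2 * C' : ℕ) : ℤ) * Qf a b c w), ?_⟩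
      simp only [Qf, Prod.fst_add, Prod.snd_add, Prod.smul_fst, Prod.smul_snd, smul_eq_mul]
      ring
  constructor
  · intro v hv
    rw [hg]
    by_contra hne
    -- the shift by `(C / D) R t`
    have key : ∀ t : ℤ × ℤ, (D : ℤ) ∣ v.1 * (2 * a * t.1 + b * t.2) + v.2 * (b * t.1 + 2 * c * t.2) := by
      intro t
      have h1 := S_shift (hT v) (((m : ℤ) ^ 2 * q) • (-(b * t.1 + 2 * c * t.2), 2 * a * t.1 + b * t.2))
      have h2 : ∀ h : ℤ × ℤ, f (d • (h + ((m : ℤ) ^ 2 * q) •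
          (-(b * t.1 + 2 * c * t.2), 2 * a * t.1 + b * t.2))) = f (d • h) := by
        intro h
        rw [← hfm (d • h) ((d * m * q) • (-(b * t.1 + 2 * c * t.2), 2 * a * t.1 + b * t.2))]
        congr 1
        rw [smul_add, smul_smul, smul_smul]
        congr 2
        ring
      have h3 : ∀ h : ℤ × ℤ, f (d • (h + ((m : ℤ) ^ 2 * q) •
          (-(b * t.1 + 2 * c * t.2), 2 * a * t.1 + b * t.2))) * e (m ^ 2 * C')
          (v.1 * (h + ((m : ℤ) ^ 2 * q) •
            (-(b * t.1 + 2 * c * t.2), 2 * a * t.1 + b * t.2)).2 -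
          v.2 * (h + ((m : ℤ) ^ 2 * q) •
            (-(b * t.1 + 2 * c * t.2), 2 * a * t.1 + b * t.2)).1 -
          d * Qf a b c (h + ((m : ℤ) ^ 2 * q) •
            (-(b * t.1 + 2 * c * t.2), 2 * a * t.1 + b * t.2))) =
          f (d • h) * e (m ^ 2 * C') (v.1 * h.2 - v.2 * h.1 - d * Qf a b c h) *
            e (m ^ 2 * C') ((m : ℤ) ^ 2 * q * (v.1 * (2 * a * t.1 + b * t.2) +
              v.2 * (b * t.1 + 2 * c * t.2))) := by
        intro h
        rw [h2, mul_assoc (f (d • h)), ← e_add]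
        congr 1
        apply e_congr hC
        refine ⟨-d * (t.1 * h.2 - t.2 * h.1 + (m : ℤ) ^ 2 * q * Qf a b c t), ?_⟩
        simp only [Qf, Prod.fst_add, Prod.snd_add, Prod.smul_fst, Prod.smul_snd, smul_eq_mul, hq]
        push_cast
        linear_combination (d * (m : ℤ) ^ 2 * q * (t.1 * h.2 - t.2 * h.1) +
          d * ((m : ℤ) ^ 2 * q) ^ 2 * (a * t.1 ^ 2 + b * t.1 * t.2 + c * t.2 ^ 2)) * hdisc
      rw [S_congr h3, S_mul] at h1
      have h4 : e (m ^ 2 * C') ((m : ℤ) ^ 2 * q * (v.1 * (2 * a * t.1 + b * t.2) +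
              v.2 * (b * t.1 + 2 * c * t.2))) = 1 := by
        apply mul_left_cancel₀ hne
        rw [h1, mul_one]
      have h5 := e_eq_one hC h4
      have h6 : ((m ^ 2 * C' : ℕ) : ℤ) = (m : ℤ) ^ 2 * q * D := by
        rw [hq]
        push_cast
        ring
      rw [h6] at h5
      exact Int.dvd_of_mul_dvd_mul_left (by positivity) h5
    obtain ⟨p, hp⟩ := key (1, 0)
    obtain ⟨r, hr⟩ := key (0, 1)
    simp only [mul_one, mul_zero, add_zero, zero_add] at hp hr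
    refine hv (-r, p) ?_
    have hD' : (D : ℤ) ≠ 0 := by exact_mod_cast hD.ne'
    ext
    · apply mul_left_cancel₀ hD'
      show (D : ℤ) * v.1 = D * (b * -r + 2 * c * p)
      linear_combination v.1 * hdisc - b * hr + 2 * c * hp
    · apply mul_left_cancel₀ hD'
      show (D : ℤ) * v.2 = D * -(2 * a * -r + b * p)
      linear_combination v.2 * hdisc + 2 * a * hr - b * hp
  · intro α
    rw [hg]
    -- complete the square
    have h1 := S_shift (hT (b * α.1 + 2 * c * α.2, -(2 * a * α.1 + b * α.2))) (A • α)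
    obtain ⟨k, hk⟩ := hAd
    have h2 : ∀ h : ℤ × ℤ, f (d • (h + A • α)) = f (d • h + α) := by
      intro h
      rw [← hfC (d • h + α) (k • α)]
      congr 1
      rw [smul_add, smul_smul, smul_smul, ← hk, sub_smul, one_smul, mul_comm d A]
      abel
    have h3 : ∀ h : ℤ × ℤ, f (d • (h + A • α)) * e (m ^ 2 * C')
        ((b * α.1 + 2 * c * α.2) * (h + A • α).2 - -(2 * a * α.1 + b * α.2) * (h + A • α).1 -
          d * Qf a b c (h + A • α)) =
        f (d • h + α) * e (m ^ 2 * C') (-(d * Qf a b c h)) * e (m ^ 2 * C') (A * Qf a b c α) := by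
      intro h
      rw [h2, mul_assoc (f (d • h + α)), ← e_add]
      congr 1
      apply e_congr hC
      refine ⟨-k * ((2 * a * α.1 * h.1 + b * (α.1 * h.2 + α.2 * h.1) + 2 * c * α.2 * h.2) +
        A * Qf a b c α), ?_⟩
      simp only [Qf, Prod.fst_add, Prod.snd_add, Prod.smul_fst, Prod.smul_snd, smul_eq_mul]
      linear_combination (-((2 * a * α.1 * h.1 + b * (α.1 * h.2 + α.2 * h.1) + 2 * c * α.2 * h.2) +
        A * (a * α.1 ^ 2 + b * α.1 * α.2 + c * α.2 ^ 2))) * hk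
    rw [S_congr h3, S_mul] at h1
    rw [← h1]
    -- the class of `h` mod `m`
    have hcop : ∀ x : ℤ, (m : ℤ) ∣ d * x → (m : ℤ) ∣ x := by
      intro x hx
      rw [show x = A * (d * x) - (A * d - 1) * x by ring, hk]
      exact dvd_sub (hx.mul_left _) ((hmC.mul_right _).mul_right _)
    have hP : Per (m ^ 2 * C') (fun h => f (d • h + α) * e (m ^ 2 * C') (-(d * Qf a b c h))) := by
      intro h w
      show f (d • (h + _) + α) * _ = f (d • h + α) * _
      congr 1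
      · rw [← hfC (d • h + α) (d • w)]
        congr 1
        rw [smul_add, smul_comm]
        abel
      · apply e_congr hC
        refine ⟨- d * (2 * a * h.1 * w.1 + b * (h.1 * w.2 + h.2 * w.1) +
          2 * c * h.2 * w.2 + ((m ^ 2 * C' : ℕ) : ℤ) * Qf a b c w), ?_⟩
        simp only [Qf, Prod.fst_add, Prod.snd_add, Prod.smul_fst, Prod.smul_snd, smul_eq_mul]
        ring
    have hshift : ∀ (t : ℤ × ℤ) (k : ℤ) (h : ℤ × ℤ),
        f (d • (h + k • (((m : ℤ) * q) • (-(b * t.1 + 2 * c * t.2), 2 * a * t.1 + b * t.2))) + α) *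
          e (m ^ 2 * C') (-(d * Qf a b c (h + k • (((m : ℤ) * q) •
            (-(b * t.1 + 2 * c * t.2), 2 * a * t.1 + b * t.2))))) =
        f (d • h + α) * e (m ^ 2 * C') (-(d * Qf a b c h)) *
          e m (k * (-(d * (t.1 * h.2 - t.2 * h.1)))) := by
      intro t k h
      have hx : e m (k * (-(d * (t.1 * h.2 - t.2 * h.1)))) =
          e (m ^ 2 * C') (((m * C' : ℕ) : ℤ) * (k * (-(d * (t.1 * h.2 - t.2 * h.1))))) := by
        rw [show m ^ 2 * C' = (m * C') * m by ring, e_scale m (by positivity)]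
      rw [hx, mul_assoc (f (d • h + α)), ← e_add]
      congr 1
      · rw [← hfm (d • h + α) ((d * k * q) • (-(b * t.1 + 2 * c * t.2), 2 * a * t.1 + b * t.2))]
        congr 1
        rw [smul_add, smul_smul, smul_smul, smul_smul]
        rw [show d * k * ((m : ℤ) * q) = (m : ℤ) * (d * k * q) by ring]
        abel
      · apply e_congr hC
        refine ⟨- d * k ^ 2 * q * Qf a b c t, ?_⟩
        simp only [Qf, Prod.fst_add, Prod.snd_add, Prod.smul_fst, Prod.smul_snd, smul_eq_mul, hq]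
        push_cast
        linear_combination (d * k * (m : ℤ) * q * (t.1 * h.2 - t.2 * h.1) +
          d * k ^ 2 * ((m : ℤ) * q) ^ 2 * (a * t.1 ^ 2 + b * t.1 * t.2 + c * t.2 ^ 2)) * hdisc
    have h4 := cls hm hP hmC d hcop
      (fun t => ((m : ℤ) * q) • (-(b * t.1 + 2 * c * t.2), 2 * a * t.1 + b * t.2))
      (fun t => ⟨⟨q * -(b * t.1 + 2 * c * t.2), by simp [mul_assoc]⟩,
        ⟨q * (2 * a * t.1 + b * t.2), by simp [mul_assoc]⟩⟩) hshift
    rw [h4]
    have h5 : S (m ^ 2 * C') (fun h => if (m : ℤ) ∣ h.1 ∧ (m : ℤ) ∣ h.2 then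
          f (d • h + α) * e (m ^ 2 * C') (-(d * Qf a b c h)) else 0) =
        S (m * C') (fun h => e C' (-(d * Qf a b c h)) * f α) := by
      have h6 := S_mult hm (m * C') (fun h => if (m : ℤ) ∣ h.1 ∧ (m : ℤ) ∣ h.2 then
          f (d • h + α) * e (m ^ 2 * C') (-(d * Qf a b c h)) else 0) (fun v hv => if_neg hv)
      rw [show m * C' * m = m ^ 2 * C' by ring] at h6
      rw [h6]
      refine S_congr fun h => ?_
      rw [if_pos ⟨by simp, by simp⟩, mul_comm]
      congr 1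
      · rw [← e_scale C' (k := m ^ 2) (by positivity)]
        congr 1
        simp only [Qf, Prod.smul_fst, Prod.smul_snd, smul_eq_mul]
        push_cast
        ring
      · rw [← hfm α (d • h), smul_comm, add_comm]
    have h7 : Per C' (fun h => e C' (-(d * Qf a b c h))) := by
      intro h w
      apply e_congr hC'
      refine ⟨- d * (2 * a * h.1 * w.1 + b * (h.1 * w.2 + h.2 * w.1) +
          2 * c * h.2 * w.2 + (C' : ℤ) * Qf a b c w), ?_⟩
      simp only [Qf, Prod.fst_add, Prod.snd_add, Prod.smul_fst, Prod.smul_snd, smul_eq_mul]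
      ring
    have h8 : S C' (fun h => e C' (-(d * Qf a b c h))) = G1 a b c d C' := by
      unfold S G1
      simp only [e_neg]
    rw [h5, S_mul, S_scale m C' h7, h8]
    show _ * e (m ^ 2 * C') (A * Qf a b c α) = f α * e (m ^ 2 * C') (A * Qf a b c α) * _
    ring

end Vale.Agent.P022
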