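import Vale.Agent.P022.H116.Hkin
import Vale.Agent.P022.H236.L3.Te

/-!
# P022-L3, chapter G: the fields `Drat` and `Te` for the operators of `Hkin`
-/

open UpperHalfPlane ModularForm HahnSeries CongruenceSubgroup
open scoped Manifold MatrixGroups ModularForm IntermediateField

noncomputable section

namespace Vale.Agent.P022.H116.L3

open Vale.Agent.P022.H542.L3 Vale.Agent.P022.H218.L3 Vale.Agent.P022.L3
  Vale.Agent.P022.H587.L3 Vale.Agent.P022.H406.L3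

theorem inv_apply_10 (d : SL(2, ℤ)) : (d⁻¹ : SL(2, ℤ)) 1 0 = -(d 1 0) := by
  rw [Matrix.SpecialLinearGroup.SL2_inv_expl]
  rfl

theorem inv_apply_01 (d : SL(2, ℤ)) : (d⁻¹ : SL(2, ℤ)) 0 1 = -(d 0 1) := by
  rw [Matrix.SpecialLinearGroup.SL2_inv_expl]
  rfl

/-- **`Drat`** -/
theorem drat (B : BaseIn) (M ℓ : ℕ) (r : KM M) (hr : r ∈ H280.L3.Rset (B.p M)) :
    DM B M ℓ r ∈ Subfield.closure (H280.L3.Rset (B.p M)) := by
  have hd := (H231.L3.isDel_dl' (P0 M) (Q0 M) ℓ).choose_spec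
  obtain ⟨r', hr', e⟩ := H280.L3.act_Rset (M := M + 1) (by omega) (B.p M) (p_mem B M) (dm M ℓ)⁻¹
    (by rw [inv_apply_10]; exact (dvd_neg).2 hd.1) (by rw [inv_apply_01]; exact (dvd_neg).2 hd.2.1)
    r hr
  have e2 : DM B M ℓ r = r' := Subtype.ext (by rw [DM_coe]; exact e.symm)
  rw [e2]
  exact Subfield.subset_closure hr'

theorem odd_of {ℓ : ℕ} (h : ℓ.Prime) (h6 : ¬ ℓ ∣ 6) : Odd ℓ :=
  h.odd_of_ne_two fun e => h6 (by rw [e]; exact ⟨3, rfl⟩)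

/-- **`Te`** -/
theorem te {N : ℕ} [NeZero N] (B : BaseIn) (M : ℕ) (hN : N = 2 ^ (M + 1))
    (hΓ : ModularGroup.T ^ N ∈ G3 (M + 1)) {ℓ : ℕ} (h : ℓ.Prime) (h6 : ¬ ℓ ∣ 6) (ζ : ℂ)
    (hζ : IsPrimitiveRoot ζ ℓ) (f : (KM M)ˣ) :
    sb ℓ h.pos (H236.L3.texM hΓ (TM M ℓ f : KM M)) =
      (∏ j ∈ Finset.range ℓ, rs (ζ ^ j) (pow_ne_zero _ (hζ.ne_zero h.ne_zero))
        (H236.L3.texM hΓ (f : KM M))) * sb (ℓ * ℓ) (Nat.mul_pos h.pos h.pos)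
          (H236.L3.texM hΓ (DM B M ℓ (f : KM M))) := by
  subst hN
  refine H236.L3.ExM.te (odd_of h h6) (NeZero.ne _) (H236.L3.texM_spec hΓ (f : KM M))
    (u := H236.L3.uj ((2 ^ (M + 1) : ℕ) : ℤ) h.pos)
    (φ := fun j => H231.L3.pbz !![1, ((2 ^ (M + 1) : ℕ) : ℤ) * (j : ℤ); 0, (ℓ : ℤ)]
      (H236.L3.up_pos h.pos j))
    (fun j => H236.L3.pb_pbz _ _) (fun j τ => H236.L3.uj_coe h.pos j τ)
    (ψ := H231.L3.pbz !![(ℓ : ℤ), 0; 0, 1] (H231.L3.diag_pos h.pos))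
    (v := fun τ => H231.L3.gl !![(ℓ : ℤ), 0; 0, 1] (H231.L3.diag_pos h.pos) • τ)
    (H236.L3.pb_pbz _ _) (fun τ => H236.L3.dg_coe h.pos τ)
    (H236.L3.texM_spec hΓ (DM B M ℓ (f : KM M))) ?_
    (H236.L3.texM_spec hΓ (TM M ℓ f : KM M)) h.pos ζ hζ
  rw [TM_coe (gd_of h h6), Fintype.prod_option, H231.L3.pbz_none h.pos, mul_comm, DM_coe]
  congr 1
  rw [Finset.prod_range]
  rfl

end Vale.Agent.P022.H116.L3
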