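import Vale.Agent.P022.H116.Hkv
import Vale.Agent.P022.H406.L3.Asm
import Vale.Agent.P022.H280.L3.GeoR

/-!
# P022-L3, chapter G: the Hecke operators on the field of `G(3, M + 1)`, the structure `HkIn`
-/

open UpperHalfPlane ModularForm HahnSeries CongruenceSubgroup
open scoped Manifold MatrixGroups ModularForm IntermediateField

noncomputable section

namespace Vale.Agent.P022.H116.L3

open Vale.Agent.P022.H542.L3 Vale.Agent.P022.H218.L3 Vale.Agent.P022.L3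
  Vale.Agent.P022.H587.L3 Vale.Agent.P022.H406.L3

/-- `2^(M+1)` -/
abbrev P0 (M : ℕ) : ℤ := ((2 ^ (M + 1) : ℕ) : ℤ)

/-- `3 * 2^(M+1)` -/
abbrev Q0 (M : ℕ) : ℤ := ((3 * 2 ^ (M + 1) : ℕ) : ℤ)

theorem G3_eq (M : ℕ) : G3 (M + 1) = H231.L3.Gp (P0 M) (Q0 M) := by
  ext γ
  rw [mem_G3]
  exact Iff.rfl

/-- the chosen diamond matrix -/
abbrev dm (M ℓ : ℕ) : SL(2, ℤ) := H231.L3.dl (P0 M) (Q0 M) ℓ

theorem dm_conj (M ℓ : ℕ) : ∀ γ ∈ G3 (M + 1), dm M ℓ * γ * (dm M ℓ)⁻¹ ∈ G3 (M + 1) := by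
  rw [G3_eq]
  exact fun _ hγ => (H231.L3.isDel_dl' (P0 M) (Q0 M) ℓ).choose_spec.conj hγ

theorem dm_conj' (M ℓ : ℕ) : ∀ γ ∈ G3 (M + 1), (dm M ℓ)⁻¹ * γ * dm M ℓ ∈ G3 (M + 1) := by
  rw [G3_eq]
  exact fun _ hγ => (H231.L3.isDel_dl' (P0 M) (Q0 M) ℓ).choose_spec.conj' hγ

theorem six_dvd (M : ℕ) : (6 : ℤ) ∣ Q0 M := ⟨2 ^ M, by unfold Q0; push_cast; ring⟩

theorem dm_mem (M ℓ : ℕ) : dm M ℓ ∈ Gamma0 6 := by
  rw [Gamma0_mem, ZMod.intCast_zmod_eq_zero_iff_dvd]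
  exact (six_dvd M).trans (H231.L3.isDel_dl' (P0 M) (Q0 M) ℓ).choose_spec.1

/-- `D_ℓ` over `ℂ` -/
def DC (M ℓ : ℕ) : KM M ≃ₐ[ℂ] KM M := H231.L3.dia (dm M ℓ) (dm_conj M ℓ) (dm_conj' M ℓ)

theorem DC_coe (M ℓ : ℕ) (x : KM M) : ((DC M ℓ x : KM M) : Mer) = act (dm M ℓ)⁻¹ (x : Mer) := rfl

theorem p_mem (B : BaseIn) (M : ℕ) : ((B.p M : KM M) : Mer) ∈ MF (Gamma0 6) := by
  rw [B.mf' M]
  exact IntermediateField.mem_adjoin_simple_self ℂ _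

theorem DC_p (B : BaseIn) (M ℓ : ℕ) : DC M ℓ (B.p M) = B.p M :=
  Subtype.ext (act_eq_self (p_mem B M) ((Gamma0 6).inv_mem (dm_mem M ℓ)))

/-- **`D_ℓ` over `ℂ(p)`** -/
def DM (B : BaseIn) (M ℓ : ℕ) : KM M ≃ₐ[ℂ⟮B.p M⟯] KM M := H231.L3.ovr (B.p M) (DC M ℓ) (DC_p B M ℓ)

theorem DM_coe (B : BaseIn) (M ℓ : ℕ) (x : KM M) :
    ((DM B M ℓ x : KM M) : Mer) = act (dm M ℓ)⁻¹ (x : Mer) := rfl

/-- the good primes -/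
abbrev GdM (M ℓ : ℕ) : Prop := H231.L3.Gd (P0 M) (Q0 M) ℓ

theorem gd_of {M ℓ : ℕ} (h : ℓ.Prime) (h6 : ¬ ℓ ∣ 6) : GdM M ℓ := by
  have h2 : Nat.Coprime ℓ 2 := (Nat.Prime.coprime_iff_not_dvd h).2 fun h' => h6 (h'.trans ⟨3, rfl⟩)
  have h3 : Nat.Coprime ℓ 3 := (Nat.Prime.coprime_iff_not_dvd h).2 fun h' => h6 (h'.trans ⟨2, rfl⟩)
  refine ⟨h, ?_, ?_⟩
  · exact Nat.isCoprime_iff_coprime.2 (h2.pow_right _)
  · exact Nat.isCoprime_iff_coprime.2 (h3.mul_right (h2.pow_right _))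

theorem good_iff {ℓ : ℕ} (h : Good 3 ℓ) : ¬ ℓ ∣ 6 := h.2

theorem TM_mem {M ℓ : ℕ} (h : GdM M ℓ) {x : Mer} (hx : x ∈ KM M) :
    ∏ i, H231.L3.pbz (H231.L3.al (P0 M) ℓ (dm M ℓ) i) (H231.L3.al_pos h.pr.pos _ i) x ∈ KM M := by
  have hx' : x ∈ MF (H231.L3.Gp (P0 M) (Q0 M)) := by rw [← G3_eq]; exact hx
  have := H231.L3.TN_mem h.pr h.cP h.cQ h.del h.pr.pos hx'
  rw [← G3_eq] at this
  exact this

/-- the product as a monoid map -/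
def TN {M ℓ : ℕ} (h : GdM M ℓ) : KM M →* KM M where
  toFun x := ⟨∏ i, H231.L3.pbz (H231.L3.al (P0 M) ℓ (dm M ℓ) i) (H231.L3.al_pos h.pr.pos _ i)
    (x : Mer), TM_mem h x.2⟩
  map_one' := Subtype.ext (by simp)
  map_mul' x y := Subtype.ext (by simp [Finset.prod_mul_distrib])

/-- **`T_ℓ`** -/
def TM (M ℓ : ℕ) : (KM M)ˣ →* (KM M)ˣ :=
  open Classical in
  if h : GdM M ℓ then Units.map (TN h) else 1

theorem TM_coe {M ℓ : ℕ} (h : GdM M ℓ) (f : (KM M)ˣ) :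
    (((TM M ℓ f : (KM M)ˣ) : KM M) : Mer) =
      ∏ i, H231.L3.pbz (H231.L3.al (P0 M) ℓ (dm M ℓ) i) (H231.L3.al_pos h.pr.pos _ i)
        ((f : KM M) : Mer) := by
  unfold TM
  rw [dif_pos h]
  rfl

theorem prod_pow_pbz {M ℓ : ℕ} (h : GdM M ℓ) {N : ℕ} {y x : Mer} (hy : y ^ N = x) :
    (∏ i, H231.L3.pbz (H231.L3.al (P0 M) ℓ (dm M ℓ) i) (H231.L3.al_pos h.pr.pos _ i) y) ^ N =
      ∏ i, H231.L3.pbz (H231.L3.al (P0 M) ℓ (dm M ℓ) i) (H231.L3.al_pos h.pr.pos _ i) x := by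
  rw [← Finset.prod_pow]
  refine Finset.prod_congr rfl fun i _ => ?_
  rw [← map_pow, hy]

theorem prod_pbz_ne {M ℓ : ℕ} (h : GdM M ℓ) {y : Mer} (hy : y ≠ 0) :
    (∏ i, H231.L3.pbz (H231.L3.al (P0 M) ℓ (dm M ℓ) i) (H231.L3.al_pos h.pr.pos _ i) y) ≠ 0 := by
  rw [Finset.prod_ne_zero_iff]
  intro i _ h'
  exact hy ((map_eq_zero_iff _ (AlgEquiv.injective _)).1 h')

theorem isDel_dm {M ℓ : ℕ} (h : GdM M ℓ) : Vale.Agent.P022.L3.IsDel 3 (M + 1) ℓ (dm M ℓ) := h.del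

theorem dvIff {N : ℕ} (hN : 0 < N) {x : Mer} (hx : x ≠ 0) (h : Dv N x) : ∃ y : Mer, y ^ N = x := by
  obtain ⟨y, -, hy⟩ := exists_root hN hx h
  exact ⟨y, hy⟩

/-- **the structure `HkIn` from `Drat` and `Te`** -/
def hkin_of {B : BaseIn} {M : ℕ} (I : GenIn B M)
    (Drat : ∀ ℓ : ℕ, ℓ.Prime → ¬ ℓ ∣ 6 → ∀ r ∈ I.R, DM B M ℓ r ∈ Subfield.closure I.R)
    (Te : ∀ ℓ : ℕ, ∀ h : ℓ.Prime, ¬ ℓ ∣ 6 → ∀ ζ : ℂ, (hζ : IsPrimitiveRoot ζ ℓ) →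
      ∀ f : (KM M)ˣ, sb ℓ h.pos (I.e (TM M ℓ f : KM M)) =
      (∏ j ∈ Finset.range ℓ, rs (ζ ^ j) (pow_ne_zero _ (hζ.ne_zero h.ne_zero))
        (I.e (f : KM M))) * sb (ℓ * ℓ) (Nat.mul_pos h.pos h.pos) (I.e (DM B M ℓ (f : KM M)))) :
    HkIn I where
  D := DM B M
  Drat := Drat
  T := TM M
  Te := Te
  TDv ℓ h h6 n f hf := by
    have hN : 0 < 2 ^ n := pow_pos (by norm_num) n
    have f0 : ((f : KM M) : Mer) ≠ 0 := fun h' => f.ne_zero (Subtype.ext h')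
    obtain ⟨y, y0, hy⟩ := exists_root hN f0 hf
    rw [TM_coe (gd_of h h6), ← prod_pow_pbz (gd_of h h6) hy]
    exact Dv_pow _ _ (prod_pbz_ne (gd_of h h6) y0)
  Tval n ℓ hℓ φ ψ f y y0 hy hv hT := by
    have hg : GdM M ℓ := gd_of hℓ.1 (good_iff hℓ)
    refine ⟨_, prod_pbz_ne hg y0, ?_, tval (N := 3) (M := M + 1) (fun _ => mem_G3) hg.pr.pos
      (isDel_dm hg) hv hT⟩
    rw [prod_pow_pbz hg hy, TM_coe hg]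
  Dval n ℓ hℓ φ ψ f y y0 hy hv hD := by
    have hg : GdM M ℓ := gd_of hℓ.1 (good_iff hℓ)
    refine ⟨act (dm M ℓ)⁻¹ y, fun h' => y0 ((map_eq_zero_iff _ (AlgEquiv.injective _)).1 h'), ?_,
      dval (N := 3) (M := M + 1) (isDel_dm hg) (dm_conj M ℓ) hv hD⟩
    rw [← map_pow, hy, DM_coe]

end Vale.Agent.P022.H116.L3
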