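import Vale.Agent.P022.H231.L3.Hk
import Vale.Agent.P022.H587.L3.Kum2

/-!
# P022-L3, chapter G: the characters of the roots of `T_ℓ f` and `D_ℓ f`
-/

open UpperHalfPlane
open scoped MatrixGroups

noncomputable section

namespace Vale.Agent.P022.H116.L3

open Vale.Agent.P022.H218.L3 Vale.Agent.P022.H231.L3 Vale.Agent.P022.H587.L3

theorem alp_eq (M ℓ : ℕ) (δ : SL(2, ℤ)) (i : Option (Fin ℓ)) :
    Vale.Agent.P022.L3.alp M ℓ δ i = al ((2 ^ M : ℕ) : ℤ) ℓ δ i := by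
  cases i <;> rfl

theorem ez_sum {N : ℕ} (hN : 0 < N) {ι : Type*} (s : Finset ι) (f : ι → ZMod N) :
    ez N (∑ i ∈ s, f i) = ∏ i ∈ s, ez N (f i) := by
  classical
  induction s using Finset.induction_on with
  | empty => simp [ez_zero]
  | insert a s ha ih => rw [Finset.sum_insert ha, Finset.prod_insert ha, ez_add hN, ih]

/-- `act γ⁻¹ (pbz A x) = pbz B (act g⁻¹ x)` if `A γ = g B` -/
theorem act_pbz {A B : Matrix (Fin 2) (Fin 2) ℤ} (hA : 0 < A.det) (hB : 0 < B.det)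
    {γ g : SL(2, ℤ)} (e : A * (γ : Matrix (Fin 2) (Fin 2) ℤ) =
      (g : Matrix (Fin 2) (Fin 2) ℤ) * B) (x : Mer) :
    act γ⁻¹ (pbz A hA x) = pbz B hB (act g⁻¹ x) := by
  have h1 : 0 < (A * (γ : Matrix (Fin 2) (Fin 2) ℤ)).det := by
    rw [Matrix.det_mul]; exact mul_pos hA (SL_pos γ)
  have h2 : 0 < ((g : Matrix (Fin 2) (Fin 2) ℤ) * B).det := by rw [← e]; exact h1
  rw [← pbz_SL, ← pbz_SL, ← pbz_mul hA (SL_pos γ) h1, ← pbz_mul (SL_pos g) hB h2]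
  exact pbz_congr e h1 h2 x

theorem tval {N M n ℓ : ℕ} {Γ : Subgroup SL(2, ℤ)}
    (hΓ : ∀ γ, γ ∈ Γ ↔ Vale.Agent.P022.L3.InG N M γ) (h0 : 0 < ℓ) {δ : SL(2, ℤ)}
    (hδ : Vale.Agent.P022.L3.IsDel N M ℓ δ) {φ ψ : SL(2, ℤ) → ZMod (2 ^ n)} {y : Mer}
    (hv : IsVal Γ y φ) (hT : Vale.Agent.P022.L3.IsT N M n ℓ φ ψ) :
    IsVal Γ (∏ i, pbz (al ((2 ^ M : ℕ) : ℤ) ℓ δ i) (al_pos h0 δ i) y) ψ := by
  intro γ hγ
  obtain ⟨π, g, hg, he, hs⟩ := hT δ hδ γ ((hΓ γ).1 hγ)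
  have hN : 0 < 2 ^ n := pow_pos (by norm_num) n
  have key : ∀ i, act γ⁻¹ (pbz (al ((2 ^ M : ℕ) : ℤ) ℓ δ i) (al_pos h0 δ i) y) =
      algebraMap ℂ Mer (ez (2 ^ n) (φ (g i))) *
        pbz (al ((2 ^ M : ℕ) : ℤ) ℓ δ (π i)) (al_pos h0 δ (π i)) y := by
    intro i
    have e := he i
    rw [alp_eq, alp_eq] at e
    rw [act_pbz (al_pos h0 δ i) (al_pos h0 δ (π i)) e, hv (g i) ((hΓ _).2 (hg i)), map_mul,
      AlgEquiv.commutes]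
  rw [map_prod, Finset.prod_congr rfl (fun i _ => key i), Finset.prod_mul_distrib,
    Equiv.prod_comp π (fun j => pbz (al ((2 ^ M : ℕ) : ℤ) ℓ δ j) (al_pos h0 δ j) y), hs,
    ez_sum hN, map_prod]

theorem dval {N M n : ℕ} {a : ℤ} {Γ : Subgroup SL(2, ℤ)} {δ : SL(2, ℤ)}
    (hδ : Vale.Agent.P022.L3.IsDel N M a δ) (hc : ∀ γ ∈ Γ, δ * γ * δ⁻¹ ∈ Γ)
    {φ ψ : SL(2, ℤ) → ZMod (2 ^ n)} {y : Mer}
    (hv : IsVal Γ y φ) (hD : Vale.Agent.P022.L3.IsD N M n a φ ψ) :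
    IsVal Γ (act δ⁻¹ y) ψ := by
  intro γ hγ
  have h1 := hv _ (hc γ hγ)
  rw [hD δ hδ γ]
  have h2 : act γ⁻¹ (act δ⁻¹ y) = act δ⁻¹ (act (δ * γ * δ⁻¹)⁻¹ y) := by
    rw [← AlgEquiv.mul_apply, ← AlgEquiv.mul_apply, ← map_mul, ← map_mul]
    congr 2
    group
  rw [h2, h1, map_mul, AlgEquiv.commutes]

end Vale.Agent.P022.H116.L3
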