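import Vale.Agent.P022.H20.GalDef
import Vale.Agent.P022.H116.Gal

/-!
P022-L3, chapter G, [PLACE]: from a prime ideal of the ring of all algebraic integers and a
Frobenius (or inertia) element at it to a valuation ring of `ℂ` and an automorphism of `ℂ`.
-/

set_option linter.unusedSectionVars false

namespace Vale.Agent.P022.H116

open NumberField Polynomial

/-! ### Valuation rings over a prime -/

section general

variable {K : Type*} [Field K]

/-- A valuation ring that dominates a subring at a prime. -/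
theorem exists_dominating (A : Subring K) (P : Ideal A) [P.IsPrime] :
    ∃ V : ValuationSubring K, A ≤ V.toSubring ∧ ∀ a : A, a ∈ P ↔ (a : K) ∈ V.nonunits := by
  obtain ⟨V, hV⟩ := (LocalSubring.ofPrime A P).exists_le_valuationSubring
  have hAV : A ≤ V.toSubring := (LocalSubring.le_ofPrime ..).trans hV.1
  refine ⟨V, hAV, fun a => ⟨fun ha => ?_, fun ha => ?_⟩⟩
  · have h1 : A.subtype '' P ⊆ V.nonunits := by
      rw [← V.image_maximalIdeal]
      refine .trans ?_ (Set.image_mono <| ((IsLocalRing.local_hom_TFAE _).out 0 2).mp hV.2)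
      rw [← IsLocalization.AtPrime.map_eq_maximalIdeal P, Ideal.map_map]
      rintro _ ⟨a, ha, rfl⟩
      exact ⟨_, Ideal.mem_map_of_mem _ ha, rfl⟩
    exact h1 ⟨a, ha, rfl⟩
  · by_contra hP
    have hu : IsUnit (algebraMap A (LocalSubring.ofPrime A P).toSubring a) :=
      IsLocalization.map_units _ (⟨a, hP⟩ : P.primeCompl)
    obtain ⟨b, hb⟩ := hu.exists_right_inv
    have h1 : (a : K) * (b : K) = 1 := congrArg Subtype.val hb
    rw [ValuationSubring.mem_nonunits_iff_or] at ha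
    rcases ha with ha | ha
    · rw [ha, zero_mul] at h1
      exact zero_ne_one h1
    · exact ha (by rw [← eq_inv_of_mul_eq_one_right h1]; exact hV.1 b.2)

/-- **Elements of a valuation ring are fractions**: if `A` is integrally closed in `L` and `a ∈ V`
is a root of a polynomial with a coefficient outside of `P = 𝔪 ∩ A`, then `a = x / y` with
`y ∉ P`. -/
theorem exists_fraction {A L : Type*} [CommRing A] [Field L] [Algebra A L]
    [IsIntegrallyClosedIn A L] (V : ValuationSubring L) (P : Ideal A)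
    (hP : ∀ x : A, x ∈ P ↔ algebraMap A L x ∈ V.nonunits) {a : L} (ha : a ∈ V) (n : ℕ) :
    ∀ f : A[X], f.natDegree ≤ n → aeval a f = 0 → (∃ j, f.coeff j ∉ P) →
      ∃ x y : A, y ∉ P ∧ a * algebraMap A L y = algebraMap A L x := by
  have hinj : Function.Injective (algebraMap A L) :=
    (isIntegrallyClosedIn_iff.1 (inferInstanceAs (IsIntegrallyClosedIn A L))).1
  induction n with
  | zero =>
    rintro f hf h0 ⟨j, hj⟩
    exfalso
    rw [Polynomial.eq_C_of_natDegree_le_zero hf, aeval_C] at h0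
    have h1 : f.coeff 0 = 0 := hinj (by rw [h0, map_zero])
    apply hj
    rw [Polynomial.eq_C_of_natDegree_le_zero hf, h1, C_0, coeff_zero]
    exact P.zero_mem
  | succ n ih =>
    rintro f hf h0 ⟨j, hj⟩
    by_cases hn : f.natDegree ≤ n
    · exact ih f hn h0 ⟨j, hj⟩
    have hdeg : f.natDegree = n + 1 := by omega
    have hint : IsIntegral A (f.leadingCoeff • a) := isIntegral_leadingCoeff_smul f a h0
    obtain ⟨b, hb⟩ := (isIntegrallyClosedIn_iff.1
      (inferInstanceAs (IsIntegrallyClosedIn A L))).2 hint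
    rw [Algebra.smul_def] at hb
    by_cases hc : f.leadingCoeff ∈ P
    · have hbP : b ∈ P := by
        rw [hP, hb, mul_comm]
        have h1 := (hP _).1 hc
        rw [ValuationSubring.mem_nonunits_iff] at h1 ⊢
        rw [map_mul]
        exact mul_lt_one_of_nonneg_of_lt_one_right ((V.valuation_le_one_iff _).2 ha) zero_le h1
      refine ih (f.eraseLead + monomial n b) ?_ ?_ ⟨j, ?_⟩
      · refine (natDegree_add_le _ _).trans (max_le ?_ (natDegree_monomial_le _))
        exact (eraseLead_natDegree_le f).trans (by omega)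
      · have h1 : aeval a f = aeval a f.eraseLead + algebraMap A L f.leadingCoeff * a ^ (n + 1) := by
          conv_lhs => rw [← eraseLead_add_monomial_natDegree_leadingCoeff f]
          rw [map_add, aeval_monomial, hdeg]
        rw [map_add, aeval_monomial, hb, ← h0, h1]
        ring
      · have hjn : j ≠ n + 1 := by
          rintro rfl
          apply hj
          rw [← hdeg]
          exact hc
        rw [coeff_add, eraseLead_coeff_of_ne j (by rw [hdeg]; exact hjn), coeff_monomial]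
        split_ifs
        · intro h
          exact hj ((P.add_mem_iff_left hbP).1 h)
        · rw [add_zero]; exact hj
    · exact ⟨b, f.leadingCoeff, hc, by rw [hb, mul_comm]⟩

end general

/-! ### Places of `ℂ` -/

/-- Every algebraic number is the root of an integral polynomial with a coefficient prime
to `ℓ`. -/
theorem exists_poly {ℓ : ℕ} (hℓ : ℓ.Prime) (P : Ideal (𝓞 Qb)) (hP1 : P ≠ ⊤)
    (hP : (ℓ : 𝓞 Qb) ∈ P) (a : Qb) :
    ∃ f : (𝓞 Qb)[X], aeval a f = 0 ∧ ∃ j, f.coeff j ∉ P := by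
  have ha : IsAlgebraic ℤ a := (IsFractionRing.isAlgebraic_iff ℤ ℚ Qb).2
    ((AlgebraicClosure.isAlgebraic ℚ).isAlgebraic a)
  obtain ⟨p, hp, hpa⟩ := ha
  refine ⟨p.primPart.map (algebraMap ℤ (𝓞 Qb)), ?_, ?_⟩
  · rw [aeval_map_algebraMap]
    exact aeval_primPart_eq_zero hp hpa
  · by_contra hcon
    push Not at hcon
    have h1 : (ℓ : ℤ) ∣ 1 := by
      have h2 : C (ℓ : ℤ) ∣ p.primPart := by
        rw [C_dvd_iff_dvd_coeff]
        intro j
        by_contra hj
        have h3 : IsCoprime (ℓ : ℤ) (p.primPart.coeff j) :=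
          (Prime.coprime_iff_not_dvd (Nat.prime_iff_prime_int.1 hℓ)).2 hj
        obtain ⟨u, v, huv⟩ := h3
        apply hP1
        rw [Ideal.eq_top_iff_one]
        have h4 := hcon j
        rw [coeff_map] at h4
        have h5 : (1 : 𝓞 Qb) = (u : 𝓞 Qb) * (ℓ : 𝓞 Qb) +
            (v : 𝓞 Qb) * algebraMap ℤ (𝓞 Qb) (p.primPart.coeff j) := by
          have h6 := congrArg (algebraMap ℤ (𝓞 Qb)) huv
          simp only [map_add, map_mul, map_one, eq_intCast, Int.cast_natCast] at h6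
          simp only [eq_intCast]
          exact h6.symm
        rw [h5]
        exact P.add_mem (P.mul_mem_left _ hP) (P.mul_mem_left _ h4)
      exact (p.isPrimitive_primPart (ℓ : ℤ) h2).dvd
    have h7 : ℓ ∣ 1 := by exact_mod_cast h1
    exact hℓ.one_lt.ne' (Nat.dvd_one.1 h7)

/-- **A place of `ℂ` over a prime of the algebraic integers.** -/
theorem exists_place (i : Qb →+* ℂ) (P : Ideal (𝓞 Qb)) (hPp : P.IsPrime) {ℓ : ℕ} (hℓ : ℓ.Prime)
    (hP : (ℓ : 𝓞 Qb) ∈ P) :
    ∃ O : ValuationSubring ℂ, O.valuation (ℓ : ℂ) < 1 ∧ (∀ x : 𝓞 Qb, i x ∈ O) ∧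
      (∀ x : 𝓞 Qb, x ∈ P ↔ O.valuation (i x) < 1) ∧
      ∀ z ∈ O, IsAlgebraic ℚ z → ∃ x y : 𝓞 Qb, y ∉ P ∧ z * i y = i x := by
  let h : 𝓞 Qb →+* ℂ := i.comp (algebraMap (𝓞 Qb) Qb)
  have hinj : Function.Injective h := i.injective.comp RingOfIntegers.coe_injective
  let e : 𝓞 Qb ≃+* h.range := RingEquiv.ofBijective h.rangeRestrict
    ⟨fun x y hxy => hinj (congrArg Subtype.val hxy), h.rangeRestrict_surjective⟩
  let P' : Ideal h.range := P.comap (e.symm : h.range →+* 𝓞 Qb)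
  have hP' : P'.IsPrime := Ideal.comap_isPrime _ _
  obtain ⟨O, hO1, hO2⟩ := exists_dominating h.range P'
  have hO3 : ∀ x : 𝓞 Qb, i x ∈ O := fun x => hO1 ⟨x, rfl⟩
  have hO4 : ∀ x : 𝓞 Qb, x ∈ P ↔ i x ∈ O.nonunits := by
    intro x
    have h1 := hO2 (e x)
    have h2 : e x ∈ P' ↔ x ∈ P := by
      change e.symm (e x) ∈ P ↔ _
      rw [RingEquiv.symm_apply_apply]
    rw [h2] at h1
    exact h1
  refine ⟨O, ?_, hO3, fun x => (hO4 x).trans (ValuationSubring.mem_nonunits_iff _), ?_⟩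
  · have h1 := (hO4 (ℓ : 𝓞 Qb)).1 hP
    rw [ValuationSubring.mem_nonunits_iff] at h1
    simpa using h1
  · intro z hz hza
    let j : Qb →ₐ[ℚ] ℂ := { i with commutes' := fun q => by simp }
    obtain ⟨a, ha⟩ := exists_preimage j hza
    have ha' : i a = z := ha
    obtain ⟨f, hf1, hf2⟩ := exists_poly hℓ P hPp.ne_top hP a
    have haV : a ∈ O.comap i := by
      rw [ValuationSubring.mem_comap, ha']
      exact hz
    obtain ⟨x, y, hy, hxy⟩ := exists_fraction (O.comap i) P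
      (fun x => by
        rw [hO4 x, ValuationSubring.mem_nonunits_iff_or, ValuationSubring.mem_nonunits_iff_or,
          ValuationSubring.mem_comap, map_inv₀, map_eq_zero]) haV _ f le_rfl hf1 hf2
    refine ⟨x, y, hy, ?_⟩
    rw [← ha', ← map_mul]
    exact congrArg i hxy

/-- Every element of `G_ℚ` is the restriction of an automorphism of `ℂ`. -/
theorem exists_sigma (i : Qb →+* ℂ) (g : GQ) : ∃ σ : ℂ ≃ₐ[ℚ] ℂ, ∀ a, σ (i a) = i (g a) := by
  let j : Qb →ₐ[ℚ] ℂ := { i with commutes' := fun q => by simp }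
  exact exists_lift_alg j g

section frob

variable {i : Qb →+* ℂ} {P : Ideal (𝓞 Qb)} {O : ValuationSubring ℂ}
  (h1 : ∀ x : 𝓞 Qb, i x ∈ O) (h2 : ∀ x : 𝓞 Qb, x ∈ P ↔ O.valuation (i x) < 1)
  (h3 : ∀ z ∈ O, IsAlgebraic ℚ z → ∃ x y : 𝓞 Qb, y ∉ P ∧ z * i y = i x)

include h1 h2 h3

/-- **Congruences pass from integers to all algebraic elements of the valuation ring.** -/
theorem place_congr {g : GQ} {σ : ℂ → ℂ} (hm : ∀ a b, σ (a * b) = σ a * σ b) {m : ℕ}
    (hg : ∀ x : 𝓞 Qb, g • x - x ^ m ∈ P) (hσ : ∀ a, σ (i a) = i (g a))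
    {z : ℂ} (hz : z ∈ O) (hza : IsAlgebraic ℚ z) :
    σ z ∈ O ∧ O.valuation (σ z - z ^ m) < 1 := by
  obtain ⟨x, y, hy, hxy⟩ := h3 z hz hza
  have hgx : ∀ x : 𝓞 Qb, i (g x) ∈ O ∧ O.valuation (i (g x) - (i x) ^ m) < 1 := by
    intro x
    have h4 := (h2 _).1 (hg x)
    have h5 : i ((g • x - x ^ m : 𝓞 Qb) : Qb) = i (g x) - (i x) ^ m := by
      rw [← map_pow, ← map_sub]
      rfl
    rw [h5] at h4
    exact ⟨h1 (g • x), h4⟩
  have hyu : O.valuation (i y) = 1 := by
    refine le_antisymm ((O.valuation_le_one_iff _).2 (h1 y)) (not_lt.1 fun h => hy ((h2 y).2 h))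
  have hyg : O.valuation (i (g y)) = 1 := by
    refine le_antisymm ((O.valuation_le_one_iff _).2 (hgx y).1) (not_lt.1 fun h => ?_)
    have h6 : O.valuation ((i y) ^ m) < 1 := by
      have h7 : (i y) ^ m = i (g y) - (i (g y) - (i y) ^ m) := by ring
      rw [h7]
      exact (O.valuation.map_sub _ _).trans_lt (max_lt h (hgx y).2)
    rw [map_pow, hyu, one_pow] at h6
    exact lt_irrefl _ h6
  have hσxy : σ z * i (g y) = i (g x) := by
    rw [← hσ, ← hσ, ← hm, hxy]
  have hzO : σ z ∈ O := by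
    rw [← O.valuation_le_one_iff]
    have h8 := congrArg O.valuation hσxy
    rw [map_mul, hyg, mul_one] at h8
    rw [h8]
    exact (O.valuation_le_one_iff _).2 (hgx x).1
  refine ⟨hzO, ?_⟩
  have h9 : (σ z - z ^ m) * (i y) ^ m = (i (g x) - (i x) ^ m) - σ z * (i (g y) - (i y) ^ m) := by
    rw [← hσxy, ← hxy]
    ring
  have h10 : O.valuation ((σ z - z ^ m) * (i y) ^ m) < 1 := by
    rw [h9]
    refine (O.valuation.map_sub _ _).trans_lt (max_lt (hgx x).2 ?_)
    rw [map_mul]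
    exact mul_lt_one_of_nonneg_of_lt_one_right ((O.valuation_le_one_iff _).2 hzO) zero_le
      (hgx y).2
  rw [map_mul, map_pow, hyu, one_pow, mul_one] at h10
  exact h10

/-- The same for the inverse. -/
theorem place_congr_symm {g : GQ} {σ : ℂ ≃ₐ[ℚ] ℂ} {m : ℕ} (hm0 : m ≠ 0)
    (hg : ∀ x : 𝓞 Qb, g • x - x ^ m ∈ P) (hσ : ∀ a, σ (i a) = i (g a))
    {z : ℂ} (hz : z ∈ O) (hza : IsAlgebraic ℚ z) :
    σ.symm z ∈ O ∧ O.valuation (z - (σ.symm z) ^ m) < 1 := by
  have hwa : IsAlgebraic ℚ (σ.symm z) := hza.algHom (σ.symm : ℂ →ₐ[ℚ] ℂ)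
  have hw : σ.symm z ∈ O := by
    by_contra hw
    have h4 : (σ.symm z)⁻¹ ∈ O := (O.mem_or_inv_mem _).resolve_left hw
    have h5 := place_congr h1 h2 h3 (σ := σ) (map_mul σ) hg hσ h4 hwa.inv
    have h6 : O.valuation (σ.symm z)⁻¹ < 1 := by
      have h7 : (σ.symm z)⁻¹ ∈ O.nonunits := by
        rw [ValuationSubring.mem_nonunits_iff_or, inv_inv]
        exact Or.inr hw
      exact (ValuationSubring.mem_nonunits_iff _).1 h7
    have h8 : O.valuation (σ (σ.symm z)⁻¹) < 1 := by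
      have h9 : σ (σ.symm z)⁻¹ = (σ (σ.symm z)⁻¹ - (σ.symm z)⁻¹ ^ m) + (σ.symm z)⁻¹ ^ m := by
        ring
      rw [h9]
      refine (O.valuation.map_add _ _).trans_lt (max_lt h5.2 ?_)
      rw [map_pow]
      exact pow_lt_one₀ zero_le h6 hm0
    rw [map_inv₀, AlgEquiv.apply_symm_apply] at h8
    have h10 : z⁻¹ ∈ O.nonunits := (ValuationSubring.mem_nonunits_iff _).2 h8
    rw [ValuationSubring.mem_nonunits_iff_or, inv_inv] at h10
    rcases h10 with h10 | h10
    · apply hw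
      rw [inv_eq_zero] at h10
      rw [h10, map_zero]
      exact O.zero_mem
    · exact h10 hz
  have h11 := place_congr h1 h2 h3 (σ := σ) (map_mul σ) hg hσ hw hwa
  rw [AlgEquiv.apply_symm_apply] at h11
  exact ⟨hw, h11.2⟩

/-- **Frobenius at `P` on the algebraic elements of `O`.** -/
theorem frob {ℓ : ℕ} {g : GQ} {σ : ℂ ≃ₐ[ℚ] ℂ}
    (hg : ∀ x : 𝓞 Qb, g • x - x ^ ℓ ∈ P) (hσ : ∀ a, σ (i a) = i (g a))
    {z : ℂ} (hz : z ∈ O) (hza : IsAlgebraic ℚ z) :
    σ z ∈ O ∧ O.valuation (σ z - z ^ ℓ) < 1 :=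
  place_congr h1 h2 h3 (σ := σ) (map_mul σ) hg hσ hz hza

/-- **Inverse Frobenius at `P` on the algebraic elements of `O`.** -/
theorem frob_symm {ℓ : ℕ} (hℓ : ℓ ≠ 0) {g : GQ} {σ : ℂ ≃ₐ[ℚ] ℂ}
    (hg : ∀ x : 𝓞 Qb, g • x - x ^ ℓ ∈ P) (hσ : ∀ a, σ (i a) = i (g a))
    {z : ℂ} (hz : z ∈ O) (hza : IsAlgebraic ℚ z) :
    σ.symm z ∈ O ∧ O.valuation (z - (σ.symm z) ^ ℓ) < 1 :=
  place_congr_symm h1 h2 h3 hℓ hg hσ hz hza

/-- **Inertia at `P` on the algebraic elements of `O`.** -/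
theorem inert {g : GQ} {σ : ℂ ≃ₐ[ℚ] ℂ}
    (hg : ∀ x : 𝓞 Qb, g • x - x ∈ P) (hσ : ∀ a, σ (i a) = i (g a))
    {z : ℂ} (hz : z ∈ O) (hza : IsAlgebraic ℚ z) :
    σ z ∈ O ∧ O.valuation (σ z - z) < 1 := by
  have h := place_congr h1 h2 h3 (σ := σ) (map_mul σ)
    (fun x => by rw [pow_one]; exact hg x) hσ hz hza
  rwa [pow_one] at h

end frob

end Vale.Agent.P022.H116
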